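import Crest.Agent.N111.Lat.Rep
import Crest.Prelude.Def_GroupVonNeumann
import Crest.Agent.R119.KapBi_946

-- ▼ part N111/VN/L2
section

/-!
# Row 111, von Neumann toolbox I: `ℓ²(X)`, matrix entries, pull-backs, multiplication operators,
complex conjugation, synthesis operators of orthonormal families.
-/

set_option autoImplicit false

noncomputable section

namespace Crest.Agent.N111

open scoped InnerProductSpace ComplexConjugate ENNReal
open ContinuousLinearMap Crest.OperatorAlgebra Filter Topology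

variable {X Y Z : Type*}

open Classical in
/-- basis vectors -/
def dt (x : X) : Ell2 X := lp.single 2 x 1

open Classical in
theorem dt_apply (x w : X) : dt x w = if w = x then 1 else 0 := by
  rw [dt, lp.single_apply, Pi.single_apply]

@[simp] theorem dt_self (x : X) : dt x x = 1 := by rw [dt_apply, if_pos rfl]

theorem dt_ne {x w : X} (h : w ≠ x) : dt x w = 0 := by rw [dt_apply, if_neg h]

@[simp] theorem inner_dt (x : X) (η : Ell2 X) : ⟪dt x, η⟫_ℂ = η x := by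
  classical
  rw [dt, lp.inner_single_left]; simp

theorem inner_dt_right (x : X) (η : Ell2 X) : ⟪η, dt x⟫_ℂ = conj (η x) := by
  rw [← inner_conj_symm, inner_dt]

@[simp] theorem norm_dt (x : X) : ‖dt x‖ = 1 := by
  classical
  rw [dt, lp.norm_single (by norm_num)]; simp

theorem orthonormal_dt : Orthonormal ℂ (dt : X → Ell2 X) :=
  ⟨norm_dt, fun x _ h => (inner_dt x _).trans (dt_ne h)⟩

theorem l2_ext {ξ η : Ell2 X} (h : ∀ x, ξ x = η x) : ξ = η := lp.ext (funext h)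

@[simp] theorem l2_add_apply (ξ η : Ell2 X) (x : X) : (ξ + η) x = ξ x + η x := rfl
@[simp] theorem l2_sub_apply (ξ η : Ell2 X) (x : X) : (ξ - η) x = ξ x - η x := rfl
@[simp] theorem l2_neg_apply (ξ : Ell2 X) (x : X) : (-ξ) x = -ξ x := rfl
@[simp] theorem l2_smul_apply (c : ℂ) (ξ : Ell2 X) (x : X) : (c • ξ) x = c * ξ x := rfl
@[simp] theorem l2_zero_apply (x : X) : (0 : Ell2 X) x = 0 := rfl
@[simp] theorem l2_star_apply (ξ : Ell2 X) (x : X) : (star ξ) x = conj (ξ x) := rfl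

theorem l2_sum_apply {ι : Type*} (s : Finset ι) (ξ : ι → Ell2 X) (x : X) :
    (∑ i ∈ s, ξ i) x = ∑ i ∈ s, ξ i x := by
  simp only [← inner_dt, inner_sum]

theorem norm_apply_le (ξ : Ell2 X) (x : X) : ‖ξ x‖ ≤ ‖ξ‖ :=
  lp.norm_apply_le_norm (by norm_num) ξ x

theorem hasSum_normSq (ξ : Ell2 X) : HasSum (fun x => ‖ξ x‖ ^ 2) (‖ξ‖ ^ 2) := by
  have h := lp.hasSum_norm (p := 2) (by norm_num) ξ
  simpa using h

theorem sum_normSq_le (ξ : Ell2 X) (s : Finset X) : ∑ x ∈ s, ‖ξ x‖ ^ 2 ≤ ‖ξ‖ ^ 2 :=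
  sum_le_hasSum s (fun _ _ => sq_nonneg _) (hasSum_normSq ξ)

theorem hasSum_inner (ξ η : Ell2 X) : HasSum (fun x => conj (ξ x) * η x) ⟪ξ, η⟫_ℂ := by
  have h := lp.hasSum_inner (𝕜 := ℂ) ξ η
  simpa only [RCLike.inner_apply'] using h

/-- a function with bounded partial sums of squares -/
def mkL2 (f : X → ℂ) {C : ℝ} (h : ∀ s : Finset X, ∑ x ∈ s, ‖f x‖ ^ 2 ≤ C) : Ell2 X :=
  ⟨f, memℓp_gen' (C := C) (by simpa using h)⟩

@[simp] theorem mkL2_apply (f : X → ℂ) {C : ℝ} (h : ∀ s : Finset X, ∑ x ∈ s, ‖f x‖ ^ 2 ≤ C)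
    (x : X) : mkL2 f h x = f x := rfl

theorem norm_le_of_sum (ξ : Ell2 X) {C : ℝ} (hC : 0 ≤ C)
    (h : ∀ s : Finset X, ∑ x ∈ s, ‖ξ x‖ ^ 2 ≤ C ^ 2) : ‖ξ‖ ≤ C :=
  (pow_le_pow_iff_left₀ (norm_nonneg _) hC two_ne_zero).1
    (hasSum_le_of_sum_le (hasSum_normSq ξ) h)

theorem norm_le_of_apply_le {ξ η : Ell2 X} {C : ℝ} (hC : 0 ≤ C) (h : ∀ x, ‖ξ x‖ ≤ C * ‖η x‖) :
    ‖ξ‖ ≤ C * ‖η‖ := by
  refine norm_le_of_sum _ (by positivity) fun s => ?_
  calc _ ≤ ∑ x ∈ s, C ^ 2 * ‖η x‖ ^ 2 := Finset.sum_le_sum fun x _ => by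
        rw [← mul_pow]; exact pow_le_pow_left₀ (norm_nonneg _) (h x) 2
    _ ≤ _ := by
        rw [← Finset.mul_sum, mul_pow]
        exact mul_le_mul_of_nonneg_left (sum_normSq_le η s) (sq_nonneg _)

theorem ext_dt {E : Type*} [NormedAddCommGroup E] [NormedSpace ℂ E]
    {S T : Ell2 X →L[ℂ] E} (h : ∀ x, S (dt x) = T (dt x)) : S = T := by
  classical
  refine lp.ext_continuousLinearMap (by norm_num) fun z => ?_
  ext1
  exact h z

theorem hasSum_dt (ξ : Ell2 X) : HasSum (fun x => ξ x • dt x) ξ := by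
  classical
  have h := lp.hasSum_single (p := 2) (by norm_num) ξ
  convert h using 2 with x
  ext w
  rw [lp.coeFn_smul, Pi.smul_apply, dt_apply, lp.single_apply, Pi.single_apply]
  split_ifs <;> simp

theorem hasSum_map_dt {E : Type*} [NormedAddCommGroup E] [NormedSpace ℂ E]
    (T : Ell2 X →L[ℂ] E) (ξ : Ell2 X) : HasSum (fun x => ξ x • T (dt x)) (T ξ) := by
  simpa only [map_smul] using T.hasSum (hasSum_dt ξ)

/-- approximation by finitely supported vectors -/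
theorem exists_finset_approx (ξ : Ell2 X) {ε : ℝ} (hε : 0 < ε) :
    ∃ s : Finset X, ∀ t : Finset X, s ⊆ t → ‖ξ - ∑ x ∈ t, ξ x • dt x‖ < ε := by
  have h := (Metric.tendsto_nhds.1 (hasSum_dt ξ)) ε hε
  obtain ⟨s, hs⟩ := eventually_atTop.1 h
  exact ⟨s, fun t ht => by simpa only [dist_eq_norm, norm_sub_rev] using hs t ht⟩

theorem eq_zero_of_inner_dt {ξ : Ell2 X} (h : ∀ x, ⟪dt x, ξ⟫_ℂ = 0) : ξ = 0 :=
  l2_ext fun x => by rw [← inner_dt, h]; rfl

theorem dense_span_dt : Dense (Submodule.span ℂ (Set.range (dt : X → Ell2 X)) : Set (Ell2 X)) :=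
  fun ξ => mem_closure_of_tendsto (hasSum_dt ξ) (Eventually.of_forall fun _ =>
    Submodule.sum_mem _ fun x _ => Submodule.smul_mem _ _ (Submodule.subset_span ⟨x, rfl⟩))

instance [Countable X] : SecondCountableTopology (Ell2 X) := by
  have : TopologicalSpace.SeparableSpace (Ell2 X) :=
    dense_span_dt.isSeparable_iff.1 ((Set.countable_range dt).isSeparable.span (R := ℂ))
  exact UniformSpace.secondCountable_of_separable _

/-! ### matrix entries -/

/-- matrix entries -/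
def ent (T : Ell2 X →L[ℂ] Ell2 Y) (y : Y) (x : X) : ℂ := T (dt x) y

theorem ent_eq_inner (T : Ell2 X →L[ℂ] Ell2 Y) (y : Y) (x : X) :
    ent T y x = ⟪dt y, T (dt x)⟫_ℂ := (inner_dt _ _).symm

theorem ext_ent {S T : Ell2 X →L[ℂ] Ell2 Y} (h : ∀ y x, ent S y x = ent T y x) : S = T :=
  ext_dt fun x => l2_ext fun y => h y x

theorem ent_adjoint (T : Ell2 X →L[ℂ] Ell2 Y) (x : X) (y : Y) :
    ent (adjoint T) x y = conj (ent T y x) := by
  rw [ent_eq_inner, adjoint_inner_right, inner_dt_right, ent]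

theorem ent_star (T : Ell2 X →L[ℂ] Ell2 X) (x y : X) : ent (star T) x y = conj (ent T y x) :=
  ent_adjoint T x y

theorem hasSum_ent (T : Ell2 X →L[ℂ] Ell2 Y) (ξ : Ell2 X) (y : Y) :
    HasSum (fun x => ent T y x * ξ x) (T ξ y) := by
  have h := (innerSL ℂ (dt y)).hasSum (hasSum_map_dt T ξ)
  simp only [innerSL_apply_apply, inner_dt, l2_smul_apply] at h
  simpa only [ent, mul_comm] using h

theorem hasSum_ent_comp (S : Ell2 Y →L[ℂ] Ell2 Z) (T : Ell2 X →L[ℂ] Ell2 Y) (z : Z) (x : X) :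
    HasSum (fun y => ent S z y * ent T y x) (ent (S ∘L T) z x) :=
  hasSum_ent S (T (dt x)) z


/-! ### pull-backs -/

theorem sum_comp_le {f : Y → X} (hf : Function.Injective f) (η : Ell2 X) (s : Finset Y) :
    ∑ y ∈ s, ‖η (f y)‖ ^ 2 ≤ ‖η‖ ^ 2 := by
  have := sum_normSq_le η (s.map ⟨f, hf⟩)
  rwa [Finset.sum_map] at this

/-- pull-back along an injection -/
def pull (f : Y → X) (hf : Function.Injective f) : Ell2 X →L[ℂ] Ell2 Y :=
  LinearMap.mkContinuous
    { toFun := fun η => mkL2 (fun y => η (f y)) (sum_comp_le hf η)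
      map_add' := fun _ _ => rfl
      map_smul' := fun _ _ => rfl } 1
    (fun η => by
      rw [one_mul]
      exact norm_le_of_sum _ (norm_nonneg _) (sum_comp_le hf η))

@[simp] theorem pull_apply (f : Y → X) (hf : Function.Injective f) (η : Ell2 X) (y : Y) :
    pull f hf η y = η (f y) := rfl


/-- push-forward (extension by zero) along an injection -/
def push (f : Y → X) (hf : Function.Injective f) : Ell2 Y →L[ℂ] Ell2 X := adjoint (pull f hf)

@[simp] theorem push_dt (f : Y → X) (hf : Function.Injective f) (y : Y) :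
    push f hf (dt y) = dt (f y) := by
  refine ext_inner_right ℂ fun η => ?_
  rw [push, adjoint_inner_left, inner_dt, inner_dt, pull_apply]

theorem adjoint_push (f : Y → X) (hf : Function.Injective f) : adjoint (push f hf) = pull f hf :=
  adjoint_adjoint _

@[simp] theorem pull_dt (f : Y → X) (hf : Function.Injective f) (y : Y) :
    pull f hf (dt (f y)) = dt y := by
  refine l2_ext fun w => ?_
  rw [pull_apply]
  by_cases h : w = y
  · rw [h, dt_self, dt_self]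
  · rw [dt_ne h, dt_ne fun h' => h (hf h')]

theorem pull_dt_of_not (f : Y → X) (hf : Function.Injective f) {x : X} (hx : ∀ w, f w ≠ x) :
    pull f hf (dt x) = 0 :=
  l2_ext fun w => by rw [pull_apply, dt_ne (hx w)]; rfl

theorem pull_comp_push (f : Y → X) (hf : Function.Injective f) :
    pull f hf ∘L push f hf = 1 := ext_dt fun y => by simp

@[simp] theorem pull_push (f : Y → X) (hf : Function.Injective f) (ξ : Ell2 Y) :
    pull f hf (push f hf ξ) = ξ := congrArg (fun T : Ell2 Y →L[ℂ] Ell2 Y => T ξ) (pull_comp_push f hf)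

@[simp] theorem push_apply (f : Y → X) (hf : Function.Injective f) (ξ : Ell2 Y) (y : Y) :
    push f hf ξ (f y) = ξ y := by rw [← pull_apply f hf, pull_push]

theorem push_apply_of_not (f : Y → X) (hf : Function.Injective f) (ξ : Ell2 Y) {x : X}
    (hx : ∀ w, f w ≠ x) : push f hf ξ x = 0 := by
  rw [← inner_dt, push, adjoint_inner_right, pull_dt_of_not f hf hx, inner_zero_left]

theorem inner_push_push (f : Y → X) (hf : Function.Injective f) (ξ η : Ell2 Y) :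
    ⟪push f hf ξ, push f hf η⟫_ℂ = ⟪ξ, η⟫_ℂ := by
  rw [push, adjoint_inner_left]; exact congrArg _ (pull_push f hf η)

@[simp] theorem norm_push (f : Y → X) (hf : Function.Injective f) (ξ : Ell2 Y) :
    ‖push f hf ξ‖ = ‖ξ‖ := by
  rw [norm_eq_sqrt_re_inner (𝕜 := ℂ), inner_push_push, ← norm_eq_sqrt_re_inner]

theorem norm_pull_equiv (e : Y ≃ X) (ξ : Ell2 X) : ‖pull e e.injective ξ‖ = ‖ξ‖ := by
  have h := (e.hasSum_iff (f := fun x => ‖ξ x‖ ^ 2)).2 (hasSum_normSq ξ)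
  exact (pow_left_inj₀ (norm_nonneg _) (norm_nonneg _) two_ne_zero).1
    ((hasSum_normSq _).unique h)

/-- the unitary attached to a bijection -/
def perm (e : X ≃ Y) : Ell2 X ≃ₗᵢ[ℂ] Ell2 Y where
  toFun := pull e.symm e.symm.injective
  map_add' := map_add _
  map_smul' := map_smul _
  invFun := pull e e.injective
  left_inv ξ := l2_ext fun x => by simp
  right_inv ξ := l2_ext fun x => by simp
  norm_map' := norm_pull_equiv e.symm

@[simp] theorem perm_apply (e : X ≃ Y) (ξ : Ell2 X) (y : Y) : perm e ξ y = ξ (e.symm y) := rfl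

@[simp] theorem perm_symm (e : X ≃ Y) : (perm e).symm = perm e.symm := rfl

@[simp] theorem perm_dt (e : X ≃ Y) (x : X) : perm e (dt x) = dt (e x) := by
  have := pull_dt e.symm e.symm.injective (e x)
  rwa [e.symm_apply_apply] at this

/-- the permutation representation of an action -/
def permRep (K X : Type*) [Group K] [MulAction K X] : URep K (Ell2 X) :=
  URep.mk' (fun g => pull (fun x => g⁻¹ • x) (MulAction.injective _))
    (by ext1 ξ; exact l2_ext fun x => by simp)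
    (fun g h => by ext1 ξ; exact l2_ext fun x => by simp [mul_smul])
    (fun g ξ => norm_pull_equiv (MulAction.toPerm g⁻¹) ξ)

@[simp] theorem permRep_apply {K : Type*} [Group K] [MulAction K X] (g : K) (ξ : Ell2 X) (x : X) :
    permRep K X g ξ x = ξ (g⁻¹ • x) := rfl

@[simp] theorem permRep_dt {K : Type*} [Group K] [MulAction K X] (g : K) (x : X) :
    permRep K X g (dt x) = dt (g • x) := by
  have := pull_dt (fun x : X => g⁻¹ • x) (MulAction.injective _) (g • x)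
  rwa [inv_smul_smul] at this

/-! ### multiplication operators -/

/-- bounded functions -/
def Bdd (f : X → ℂ) : Prop := ∃ C, ∀ x, ‖f x‖ ≤ C

theorem sum_mul_le {f : X → ℂ} {C : ℝ} (hf : ∀ x, ‖f x‖ ≤ C) (ξ : Ell2 X) (s : Finset X) :
    ∑ x ∈ s, ‖f x * ξ x‖ ^ 2 ≤ (|C| * ‖ξ‖) ^ 2 := by
  calc _ ≤ ∑ x ∈ s, |C| ^ 2 * ‖ξ x‖ ^ 2 := Finset.sum_le_sum fun x _ => by
        rw [← mul_pow, norm_mul]
        gcongr
        exact (hf x).trans (le_abs_self C)
    _ ≤ _ := by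
        rw [← Finset.mul_sum, mul_pow]
        exact mul_le_mul_of_nonneg_left (sum_normSq_le ξ s) (sq_nonneg _)

open Classical in
/-- the multiplication operator by a bounded function (zero if the function is unbounded) -/
def mulOp (f : X → ℂ) : Ell2 X →L[ℂ] Ell2 X :=
  if h : Bdd f then
    LinearMap.mkContinuous
      { toFun := fun ξ => mkL2 (fun x => f x * ξ x) (sum_mul_le h.choose_spec ξ)
        map_add' := fun _ _ => l2_ext fun x => by simp [mul_add]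
        map_smul' := fun _ _ => l2_ext fun x => by simp [mul_left_comm] } |h.choose|
      (fun ξ => norm_le_of_sum _ (by positivity) (sum_mul_le h.choose_spec ξ))
  else 0

theorem Bdd.mulOp_apply {f : X → ℂ} (h : Bdd f) (ξ : Ell2 X) (x : X) :
    mulOp f ξ x = f x * ξ x := by
  rw [mulOp, dif_pos h]; rfl

theorem Bdd.mulOp_dt {f : X → ℂ} (h : Bdd f) (x : X) : mulOp f (dt x) = f x • dt x :=
  l2_ext fun w => by
    rw [h.mulOp_apply, l2_smul_apply]
    by_cases e : w = x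
    · rw [e]
    · rw [dt_ne e, mul_zero, mul_zero]

theorem norm_mulOp_le {f : X → ℂ} {C : ℝ} (hC : 0 ≤ C) (hf : ∀ x, ‖f x‖ ≤ C) : ‖mulOp f‖ ≤ C :=
  opNorm_le_bound _ hC fun ξ => norm_le_of_apply_le hC fun x => by
    rw [Bdd.mulOp_apply ⟨C, hf⟩, norm_mul]; gcongr; exact hf x

theorem Bdd.const (c : ℂ) : Bdd fun _ : X => c := ⟨‖c‖, fun _ => le_rfl⟩

theorem Bdd.add {f g : X → ℂ} (hf : Bdd f) (hg : Bdd g) : Bdd fun x => f x + g x :=
  let ⟨C, hC⟩ := hf; let ⟨D, hD⟩ := hg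
  ⟨C + D, fun x => (norm_add_le _ _).trans (add_le_add (hC x) (hD x))⟩

theorem Bdd.sub {f g : X → ℂ} (hf : Bdd f) (hg : Bdd g) : Bdd fun x => f x - g x :=
  let ⟨C, hC⟩ := hf; let ⟨D, hD⟩ := hg
  ⟨C + D, fun x => (norm_sub_le _ _).trans (add_le_add (hC x) (hD x))⟩

theorem Bdd.mul {f g : X → ℂ} (hf : Bdd f) (hg : Bdd g) : Bdd fun x => f x * g x :=
  let ⟨C, hC⟩ := hf; let ⟨D, hD⟩ := hg
  ⟨C * D, fun x => (norm_mul_le _ _).trans
    (mul_le_mul (hC x) (hD x) (norm_nonneg _) ((norm_nonneg _).trans (hC x)))⟩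

theorem Bdd.conj {f : X → ℂ} (hf : Bdd f) : Bdd fun x => conj (f x) :=
  let ⟨C, hC⟩ := hf; ⟨C, fun x => by simpa using hC x⟩

theorem Bdd.comp {f : X → ℂ} (hf : Bdd f) (e : Y → X) : Bdd fun y => f (e y) :=
  let ⟨C, hC⟩ := hf; ⟨C, fun _ => hC _⟩

theorem mulOp_add {f g : X → ℂ} (hf : Bdd f) (hg : Bdd g) :
    mulOp (fun x => f x + g x) = mulOp f + mulOp g :=
  ext_dt fun x => by simp [(hf.add hg).mulOp_dt, hf.mulOp_dt, hg.mulOp_dt, add_smul]

theorem mulOp_sub {f g : X → ℂ} (hf : Bdd f) (hg : Bdd g) :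
    mulOp (fun x => f x - g x) = mulOp f - mulOp g :=
  ext_dt fun x => by simp [(hf.sub hg).mulOp_dt, hf.mulOp_dt, hg.mulOp_dt, sub_smul]

theorem mulOp_mul {f g : X → ℂ} (hf : Bdd f) (hg : Bdd g) :
    mulOp (fun x => f x * g x) = mulOp f * mulOp g :=
  ext_dt fun x => by simp [(hf.mul hg).mulOp_dt, hf.mulOp_dt, hg.mulOp_dt, smul_smul, mul_comm]

theorem mulOp_const (c : ℂ) : mulOp (fun _ : X => c) = c • 1 :=
  ext_dt fun x => by simp [(Bdd.const c).mulOp_dt]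

theorem mulOp_smul (c : ℂ) {f : X → ℂ} (hf : Bdd f) : mulOp (fun x => c * f x) = c • mulOp f := by
  rw [mulOp_mul (Bdd.const c) hf, mulOp_const]; simp

theorem star_mulOp {f : X → ℂ} (hf : Bdd f) : star (mulOp f) = mulOp fun x => conj (f x) :=
  ext_ent fun y x => by
    rw [ent_star, ent, ent, hf.mulOp_apply, hf.conj.mulOp_apply]
    by_cases e : y = x
    · simp [e]
    · simp [dt_ne e, dt_ne (Ne.symm e)]

/-! ### complex conjugation -/

theorem inner_star_star (ξ η : Ell2 X) : ⟪star ξ, star η⟫_ℂ = ⟪η, ξ⟫_ℂ :=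
  (hasSum_inner _ _).unique (by simpa [mul_comm] using hasSum_inner η ξ)

@[simp] theorem star_dt (x : X) : star (dt x) = dt x :=
  l2_ext fun w => by rw [l2_star_apply, dt_apply]; split_ifs <;> simp

/-- the complex conjugate operator -/
def cj (T : Ell2 X →L[ℂ] Ell2 Y) : Ell2 X →L[ℂ] Ell2 Y :=
  LinearMap.mkContinuous
    { toFun := fun ξ => star (T (star ξ))
      map_add' := fun _ _ => by simp
      map_smul' := fun _ _ => by simp } ‖T‖
    (fun ξ => by simpa using T.le_opNorm (star ξ))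

@[simp] theorem cj_apply (T : Ell2 X →L[ℂ] Ell2 Y) (ξ : Ell2 X) : cj T ξ = star (T (star ξ)) := rfl


@[simp] theorem cj_cj (T : Ell2 X →L[ℂ] Ell2 Y) : cj (cj T) = T := by ext1 ξ; simp

@[simp] theorem norm_cj (T : Ell2 X →L[ℂ] Ell2 Y) : ‖cj T‖ = ‖T‖ := by
  have h : ∀ S : Ell2 X →L[ℂ] Ell2 Y, ‖cj S‖ ≤ ‖S‖ := fun S =>
    LinearMap.mkContinuous_norm_le _ (norm_nonneg _) _
  exact le_antisymm (h T) (by simpa using h (cj T))



/-! ### synthesis operator of an orthonormal family -/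

section syn

variable {E : Type*} [NormedAddCommGroup E] [InnerProductSpace ℂ E] [CompleteSpace E]

/-- the isometry `ℓ²(X) → E` sending `δ_x` to `v x` -/
def syn {v : X → E} (hv : Orthonormal ℂ v) : Ell2 X →ₗᵢ[ℂ] E :=
  hv.orthogonalFamily.linearIsometry

@[simp] theorem syn_dt {v : X → E} (hv : Orthonormal ℂ v) (x : X) : syn hv (dt x) = v x := by
  classical
  rw [syn, dt, OrthogonalFamily.linearIsometry_apply_single]; simp

theorem hasSum_syn {v : X → E} (hv : Orthonormal ℂ v) (ξ : Ell2 X) :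
    HasSum (fun x => ξ x • v x) (syn hv ξ) := by
  simpa using hasSum_map_dt (syn hv).toContinuousLinearMap ξ

theorem inner_syn {v : X → E} (hv : Orthonormal ℂ v) (ξ : Ell2 X) (x : X) :
    ⟪v x, syn hv ξ⟫_ℂ = ξ x := by
  rw [← syn_dt hv, LinearIsometry.inner_map_map, inner_dt]

theorem syn_surjective {v : X → E} (hv : Orthonormal ℂ v)
    (hc : ∀ w, (∀ x, ⟪v x, w⟫_ℂ = 0) → w = 0) : Function.Surjective (syn hv) := by
  intro w
  have hs : ∀ s : Finset X, ∑ x ∈ s, ‖⟪v x, w⟫_ℂ‖ ^ 2 ≤ ‖w‖ ^ 2 := fun s =>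
    hv.sum_inner_products_le w
  refine ⟨mkL2 _ hs, (sub_eq_zero.1 (hc _ fun x => ?_))⟩
  rw [inner_sub_right, inner_syn, mkL2_apply, sub_self]

/-- the unitary attached to a complete orthonormal family -/
def synE {v : X → E} (hv : Orthonormal ℂ v) (hc : ∀ w, (∀ x, ⟪v x, w⟫_ℂ = 0) → w = 0) :
    Ell2 X ≃ₗᵢ[ℂ] E := LinearIsometryEquiv.ofSurjective (syn hv) (syn_surjective hv hc)

@[simp] theorem synE_dt {v : X → E} (hv : Orthonormal ℂ v) (hc) (x : X) :
    synE hv hc (dt x) = v x := syn_dt hv x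

theorem synE_symm_apply {v : X → E} (hv : Orthonormal ℂ v) (hc) (w : E) (x : X) :
    (synE hv hc).symm w x = ⟪v x, w⟫_ℂ := by
  rw [← inner_dt, ← (synE hv hc).inner_map_map, synE_dt, LinearIsometryEquiv.apply_symm_apply]

end syn

end Crest.Agent.N111
end
end

-- ▼ part N111/VN/Grp
section

/-!
# Row 111, von Neumann toolbox II: `λ`, `ρ`, `L(K) = ρ(K)'`, the trace, right multiplications.
-/

set_option autoImplicit false

noncomputable section

namespace Crest.Agent.N111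

open scoped InnerProductSpace ComplexConjugate ENNReal ComplexOrder
open ContinuousLinearMap Crest.OperatorAlgebra Filter Topology

/-! ### commutants of representations -/

section comm

variable {K H : Type*} [Group K] [NormedAddCommGroup H] [InnerProductSpace ℂ H] [CompleteSpace H]

/-- the commutant of a unitary representation -/
def URep.comm (σ : URep K H) : StarSubalgebra ℂ (H →L[ℂ] H) where
  carrier := {T | ∀ g, σ g * T = T * σ g}
  mul_mem' {S T} hS hT g := by rw [← mul_assoc, hS, mul_assoc, hT, mul_assoc]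
  add_mem' {S T} hS hT g := by rw [mul_add, add_mul, hS, hT]
  algebraMap_mem' c g := (Algebra.commutes c _).symm
  star_mem' {T} hT g := by
    have := congrArg star (hT g⁻¹)
    simpa only [star_mul, σ.star_apply, inv_inv] using this.symm

theorem URep.mem_comm {σ : URep K H} {T : H →L[ℂ] H} : T ∈ σ.comm ↔ ∀ g, σ g * T = T * σ g :=
  Iff.rfl

theorem URep.comm_apply {σ : URep K H} {T : H →L[ℂ] H} (hT : T ∈ σ.comm) (g : K) (v : H) :
    σ g (T v) = T (σ g v) := congrArg (fun S : H →L[ℂ] H => S v) (hT g)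

theorem URep.coe_comm (σ : URep K H) :
    (σ.comm : Set (H →L[ℂ] H)) = Set.centralizer (Set.range σ) := by
  ext T
  simp only [SetLike.mem_coe, URep.mem_comm, Set.mem_centralizer_iff, Set.forall_mem_range]

theorem URep.isClosed_comm (σ : URep K H) : IsClosed (σ.comm : Set (H →L[ℂ] H)) := by
  rw [σ.coe_comm]; exact Set.isClosed_centralizer _

theorem URep.cfc_mem_comm (σ : URep K H) {T : H →L[ℂ] H} (hT : T ∈ σ.comm) (f : ℝ → ℝ) :
    cfc f T ∈ σ.comm :=
  have := σ.isClosed_comm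
  cfc_mem f hT

/-- the commutant is weakly closed -/
theorem URep.mem_comm_of_wtends (σ : URep K H) {α : Type*} {l : Filter α} [l.NeBot]
    {T : α → H →L[ℂ] H} {T₀ : H →L[ℂ] H} (h : WTends l T T₀) (hT : ∀ᶠ a in l, T a ∈ σ.comm) :
    T₀ ∈ σ.comm := fun g => by
  ext1 v
  refine ext_inner_left ℂ fun w => ?_
  have h1 := h (σ g⁻¹ w) v
  have h2 := h w (σ g v)
  simp only [← σ.inner_right] at h1
  refine tendsto_nhds_unique h1 (h2.congr' ?_)
  filter_upwards [hT] with a ha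
  rw [σ.comm_apply ha]

/-- the linear span of a representation (finitely supported combinations) -/
def URep.span (σ : URep K H) : StarSubalgebra ℂ (H →L[ℂ] H) where
  carrier := Submodule.span ℂ (Set.range σ)
  mul_mem' {S T} hS hT := by
    have := Submodule.mul_mem_mul hS hT
    rw [Submodule.span_mul_span] at this
    refine Submodule.span_mono ?_ this
    rintro _ ⟨_, ⟨g, rfl⟩, _, ⟨h, rfl⟩, rfl⟩
    exact ⟨g * h, map_mul σ g h⟩
  add_mem' := Submodule.add_mem _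
  algebraMap_mem' c := by
    rw [Algebra.algebraMap_eq_smul_one]
    exact Submodule.smul_mem _ _ (Submodule.subset_span ⟨1, map_one σ⟩)
  star_mem' {T} hT := by
    induction hT using Submodule.span_induction with
    | mem _ h => obtain ⟨g, rfl⟩ := h; exact Submodule.subset_span ⟨g⁻¹, (σ.star_apply g).symm⟩
    | zero => simp
    | add _ _ _ _ h1 h2 => rw [star_add]; exact Submodule.add_mem _ h1 h2
    | smul c _ _ h => rw [star_smul]; exact Submodule.smul_mem _ _ h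

theorem URep.apply_mem_span (σ : URep K H) (g : K) : σ g ∈ σ.span := Submodule.subset_span ⟨g, rfl⟩

theorem URep.mem_span {σ : URep K H} {T : H →L[ℂ] H} :
    T ∈ σ.span ↔ ∃ (s : Finset K) (c : K → ℂ), T = ∑ g ∈ s, c g • σ g := by
  constructor
  · intro h
    obtain ⟨c, hc⟩ := (Finsupp.mem_span_range_iff_exists_finsupp).1 h
    exact ⟨c.support, c, hc.symm⟩
  · rintro ⟨s, c, rfl⟩
    exact sum_mem fun g _ => SMulMemClass.smul_mem _ (σ.apply_mem_span g)

theorem URep.span_induction {σ : URep K H} {p : (H →L[ℂ] H) → Prop} (h0 : p 0)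
    (hg : ∀ g, p (σ g)) (hadd : ∀ S T, p S → p T → p (S + T)) (hsmul : ∀ (c : ℂ) S, p S → p (c • S))
    {T : H →L[ℂ] H} (hT : T ∈ σ.span) : p T := by
  induction hT using Submodule.span_induction with
  | mem _ h => obtain ⟨g, rfl⟩ := h; exact hg g
  | zero => exact h0
  | add _ _ _ _ h1 h2 => exact hadd _ _ h1 h2
  | smul c _ _ h => exact hsmul _ _ h

theorem URep.comm_span {σ : URep K H} {S T : H →L[ℂ] H} (hS : S ∈ σ.span) (hT : T ∈ σ.comm) :
    S * T = T * S :=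
  URep.span_induction (p := fun S => S * T = T * S) (by simp) hT
    (fun _ _ h1 h2 => by rw [add_mul, mul_add, h1, h2])
    (fun _ _ h => by rw [smul_mul_assoc, mul_smul_comm, h]) hS

theorem URep.centralizer_span (σ : URep K H) :
    Set.centralizer (σ.span : Set (H →L[ℂ] H)) = σ.comm :=
  Set.Subset.antisymm (fun _ hT g => hT _ (σ.apply_mem_span g))
    fun _ hT _ hS => URep.comm_span hS hT

/-- conjugation of a representation by a unitary -/
def URep.transport {H' : Type*} [NormedAddCommGroup H'] [InnerProductSpace ℂ H']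
    {H : Type*} [NormedAddCommGroup H] [InnerProductSpace ℂ H]
    (σ : URep K H) (W : H ≃ₗᵢ[ℂ] H') : URep K H' :=
  URep.mk' (fun g => (W : H →L[ℂ] H') ∘L σ g ∘L (W.symm : H' →L[ℂ] H))
    (by ext1 v; simp) (fun g h => by ext1 v; simp) (fun g v => by simp)

@[simp] theorem URep.transport_apply {H' : Type*} [NormedAddCommGroup H'] [InnerProductSpace ℂ H']
    {H : Type*} [NormedAddCommGroup H] [InnerProductSpace ℂ H]
    (σ : URep K H) (W : H ≃ₗᵢ[ℂ] H') (g : K) (v : H') :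
    σ.transport W g v = W (σ g (W.symm v)) := rfl

end comm

variable {K : Type*} [Group K]

/-- the left regular representation -/
def lam (K : Type*) [Group K] : URep K (Ell2 K) := permRep K K

/-- the right regular representation -/
def rho (K : Type*) [Group K] : URep K (Ell2 K) :=
  URep.mk' (fun g => pull (fun x => x * g) (mul_left_injective _))
    (by ext1 ξ; exact l2_ext fun x => by simp)
    (fun g h => by ext1 ξ; exact l2_ext fun x => by simp [mul_assoc])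
    (fun g ξ => norm_pull_equiv (Equiv.mulRight g) ξ)

@[simp] theorem lam_apply (g : K) (ξ : Ell2 K) (x : K) : lam K g ξ x = ξ (g⁻¹ * x) := rfl
@[simp] theorem rho_apply (g : K) (ξ : Ell2 K) (x : K) : rho K g ξ x = ξ (x * g) := rfl
@[simp] theorem lam_dt (g x : K) : lam K g (dt x) = dt (g * x) := permRep_dt g x

@[simp] theorem rho_dt (g x : K) : rho K g (dt x) = dt (x * g⁻¹) := by
  have := pull_dt (fun x => x * g) (mul_left_injective _) (x * g⁻¹)
  rwa [inv_mul_cancel_right] at this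

/-- the left von Neumann algebra `L(K) = ρ(K)'` -/
abbrev LA (K : Type*) [Group K] : StarSubalgebra ℂ (Ell2 K →L[ℂ] Ell2 K) := (rho K).comm

/-- the right von Neumann algebra `R(K) = λ(K)'` -/
abbrev RA (K : Type*) [Group K] : StarSubalgebra ℂ (Ell2 K →L[ℂ] Ell2 K) := (lam K).comm

theorem lam_mem_LA (g : K) : lam K g ∈ LA K := fun h => ext_dt fun x => by simp [mul_assoc]

theorem rho_mem_RA (g : K) : rho K g ∈ RA K := fun h => (lam_mem_LA h g).symm

theorem span_lam_le : (lam K).span ≤ LA K := fun _ hT g =>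
  (URep.comm_span hT (rho_mem_RA g)).symm


variable {S T : Ell2 K →L[ℂ] Ell2 K}

theorem LA_dt (hT : T ∈ LA K) (x : K) : T (dt x) = rho K x⁻¹ (T (dt 1)) := by
  rw [URep.comm_apply hT]; simp

theorem RA_dt (hT : T ∈ RA K) (x : K) : T (dt x) = lam K x (T (dt 1)) := by
  rw [URep.comm_apply hT]; simp

theorem ent_LA (hT : T ∈ LA K) (y x : K) : ent T y x = T (dt 1) (y * x⁻¹) := by
  rw [ent, LA_dt hT, rho_apply]

theorem ent_RA (hT : T ∈ RA K) (y x : K) : ent T y x = T (dt 1) (x⁻¹ * y) := by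
  rw [ent, RA_dt hT, lam_apply]

/-- `δ₁` is separating for `L(K)` -/
theorem LA_ext (hS : S ∈ LA K) (hT : T ∈ LA K) (h : S (dt 1) = T (dt 1)) : S = T :=
  ext_dt fun x => by rw [LA_dt hS, LA_dt hT, h]

theorem RA_ext (hS : S ∈ RA K) (hT : T ∈ RA K) (h : S (dt 1) = T (dt 1)) : S = T :=
  ext_dt fun x => by rw [RA_dt hS, RA_dt hT, h]

/-- the commutation theorem -/
theorem LA_comm_RA (hT : T ∈ LA K) (hS : S ∈ RA K) : T * S = S * T := by
  refine ext_ent fun y x => (hasSum_ent_comp T S y x).unique ?_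
  have h := hasSum_ent_comp S T y x
  let e : K ≃ K := ((Equiv.inv K).trans (Equiv.mulLeft y)).trans (Equiv.mulRight x)
  rw [← e.hasSum_iff] at h
  refine h.congr_fun fun z => ?_
  simp only [Function.comp, ent_LA hT, ent_RA hS, e, Equiv.trans_apply, Equiv.inv_apply,
    Equiv.coe_mulLeft, Equiv.coe_mulRight]
  rw [mul_comm]
  congr 2 <;> group

theorem mem_leftTranslations : T ∈ leftTranslations K ↔ ∃ g, lam K g = T := by
  constructor
  · rintro ⟨g, hg⟩
    exact ⟨g, ContinuousLinearMap.ext fun f => l2_ext fun x => (hg f x).symm⟩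
  · rintro ⟨g, rfl⟩
    exact ⟨g, fun _ _ => rfl⟩

theorem centralizer_RA : Set.centralizer (RA K : Set (Ell2 K →L[ℂ] Ell2 K)) = LA K :=
  Set.Subset.antisymm (fun _ hT g => hT _ (rho_mem_RA g))
    fun _ hT _ hS => (LA_comm_RA hT hS).symm


theorem groupVonNeumann_eq (K : Type*) [Group K] : groupVonNeumann K = LA K := by
  have : leftTranslations K = Set.range (lam K) := Set.ext fun _ => mem_leftTranslations
  rw [groupVonNeumann, this, ← URep.coe_comm, centralizer_RA]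

theorem mem_groupVonNeumann : T ∈ groupVonNeumann K ↔ T ∈ LA K := by
  rw [groupVonNeumann_eq]; rfl

/-! ### the modular conjugation -/

/-- the flip `ξ ↦ ξ (·⁻¹)` -/
def flp (K : Type*) [Group K] : Ell2 K →L[ℂ] Ell2 K := pull (fun x => x⁻¹) inv_injective

@[simp] theorem flp_apply (ξ : Ell2 K) (x : K) : flp K ξ x = ξ x⁻¹ := rfl
@[simp] theorem flp_flp (ξ : Ell2 K) : flp K (flp K ξ) = ξ := l2_ext fun x => by simp
@[simp] theorem norm_flp (ξ : Ell2 K) : ‖flp K ξ‖ = ‖ξ‖ := norm_pull_equiv (Equiv.inv K) ξ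

@[simp] theorem flp_dt (x : K) : flp K (dt x) = dt x⁻¹ := by
  have := pull_dt (fun x : K => x⁻¹) inv_injective x⁻¹
  rwa [inv_inv] at this

theorem inner_flp_left (ξ η : Ell2 K) : ⟪flp K ξ, η⟫_ℂ = ⟪ξ, flp K η⟫_ℂ := by
  refine (hasSum_inner _ _).unique ?_
  have h := ((Equiv.inv K).hasSum_iff).2 (hasSum_inner ξ (flp K η))
  simpa [Function.comp_def] using h

/-- the antiunitary involution `(J ξ) x = conj (ξ x⁻¹)` -/
def Jc (ξ : Ell2 K) : Ell2 K := star (flp K ξ)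

@[simp] theorem Jc_apply (ξ : Ell2 K) (x : K) : Jc ξ x = conj (ξ x⁻¹) := rfl
@[simp] theorem Jc_Jc (ξ : Ell2 K) : Jc (Jc ξ) = ξ := l2_ext fun x => by simp
@[simp] theorem norm_Jc (ξ : Ell2 K) : ‖Jc ξ‖ = ‖ξ‖ := by simp [Jc]
@[simp] theorem Jc_dt (x : K) : Jc (dt x) = dt x⁻¹ := by simp [Jc]
theorem Jc_add (ξ η : Ell2 K) : Jc (ξ + η) = Jc ξ + Jc η := by simp [Jc]
theorem Jc_sub (ξ η : Ell2 K) : Jc (ξ - η) = Jc ξ - Jc η := by simp [Jc]
theorem Jc_smul (c : ℂ) (ξ : Ell2 K) : Jc (c • ξ) = conj c • Jc ξ := by simp [Jc]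
@[simp] theorem Jc_zero : Jc (0 : Ell2 K) = 0 := by simp [Jc]

theorem inner_Jc_Jc (ξ η : Ell2 K) : ⟪Jc ξ, Jc η⟫_ℂ = ⟪η, ξ⟫_ℂ := by
  rw [Jc, Jc, inner_star_star, inner_flp_left, flp_flp]

theorem inner_Jc_left (ξ η : Ell2 K) : ⟪Jc ξ, η⟫_ℂ = ⟪Jc η, ξ⟫_ℂ := by
  rw [← inner_Jc_Jc, Jc_Jc]

theorem Jc_lam (g : K) (ξ : Ell2 K) : Jc (lam K g ξ) = rho K g (Jc ξ) := l2_ext fun x => by simp


/-- `T ↦ J T J`, a conjugate linear `*`-automorphism exchanging `L(K)` and `R(K)` -/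
def jj (T : Ell2 K →L[ℂ] Ell2 K) : Ell2 K →L[ℂ] Ell2 K := flp K ∘L cj T ∘L flp K

theorem jj_apply (T : Ell2 K →L[ℂ] Ell2 K) (ξ : Ell2 K) : jj T ξ = Jc (T (Jc ξ)) :=
  l2_ext fun _ => rfl

@[simp] theorem jj_jj (T : Ell2 K →L[ℂ] Ell2 K) : jj (jj T) = T := by ext1 ξ; simp [jj_apply]
theorem jj_mul (S T : Ell2 K →L[ℂ] Ell2 K) : jj (S * T) = jj S * jj T := by
  ext1 ξ; simp [jj_apply]
theorem jj_add (S T : Ell2 K →L[ℂ] Ell2 K) : jj (S + T) = jj S + jj T := by
  ext1 ξ; simp [jj_apply, Jc_add]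
theorem jj_sub (S T : Ell2 K →L[ℂ] Ell2 K) : jj (S - T) = jj S - jj T := by
  ext1 ξ; simp [jj_apply, Jc_sub]
theorem jj_smul (c : ℂ) (T : Ell2 K →L[ℂ] Ell2 K) : jj (c • T) = conj c • jj T := by
  ext1 ξ; simp [jj_apply, Jc_smul]
@[simp] theorem jj_one : jj (1 : Ell2 K →L[ℂ] Ell2 K) = 1 := by ext1 ξ; simp [jj_apply]
@[simp] theorem jj_zero : jj (0 : Ell2 K →L[ℂ] Ell2 K) = 0 := by ext1 ξ; simp [jj_apply]
@[simp] theorem jj_lam (g : K) : jj (lam K g) = rho K g := by ext1 ξ; simp [jj_apply, Jc_lam]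
@[simp] theorem jj_rho (g : K) : jj (rho K g) = lam K g := by rw [← jj_lam, jj_jj]

theorem jj_star (T : Ell2 K →L[ℂ] Ell2 K) : jj (star T) = star (jj T) := by
  rw [star_eq_adjoint (jj T), eq_adjoint_iff]
  intro ξ η
  rw [jj_apply, jj_apply, inner_Jc_left, star_eq_adjoint, adjoint_inner_right,
    ← inner_Jc_Jc, Jc_Jc]

@[simp] theorem norm_jj (T : Ell2 K →L[ℂ] Ell2 K) : ‖jj T‖ = ‖T‖ := by
  have h : ∀ S : Ell2 K →L[ℂ] Ell2 K, ‖jj S‖ ≤ ‖S‖ := fun S =>
    opNorm_le_bound _ (norm_nonneg _) fun ξ => by simpa [jj_apply] using S.le_opNorm (Jc ξ)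
  exact le_antisymm (h T) (by simpa using h (jj T))

theorem jj_mem_RA (hT : T ∈ LA K) : jj T ∈ RA K := fun g => by
  rw [← jj_rho, ← jj_mul, hT, jj_mul]


theorem star_hat_LA (hT : T ∈ LA K) : star T (dt 1) = Jc (T (dt 1)) :=
  l2_ext fun x => (ent_star T x 1).trans (by rw [ent_LA hT, Jc_apply, one_mul])


/-- right multiplication: `Rm T (S δ₁) = S T δ₁` for `S, T ∈ L(K)` -/
def Rm (T : Ell2 K →L[ℂ] Ell2 K) : Ell2 K →L[ℂ] Ell2 K := jj (star T)

@[simp] theorem Rm_Rm (T : Ell2 K →L[ℂ] Ell2 K) : Rm (Rm T) = T := by simp [Rm, jj_star]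
theorem Rm_mul (S T : Ell2 K →L[ℂ] Ell2 K) : Rm (S * T) = Rm T * Rm S := by simp [Rm, jj_mul]
theorem Rm_add (S T : Ell2 K →L[ℂ] Ell2 K) : Rm (S + T) = Rm S + Rm T := by simp [Rm, jj_add]
theorem Rm_sub (S T : Ell2 K →L[ℂ] Ell2 K) : Rm (S - T) = Rm S - Rm T := by simp [Rm, jj_sub]
theorem Rm_smul (c : ℂ) (T : Ell2 K →L[ℂ] Ell2 K) : Rm (c • T) = c • Rm T := by
  simp [Rm, jj_smul]
@[simp] theorem Rm_one : Rm (1 : Ell2 K →L[ℂ] Ell2 K) = 1 := by simp [Rm]
@[simp] theorem Rm_zero : Rm (0 : Ell2 K →L[ℂ] Ell2 K) = 0 := by simp [Rm]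
theorem Rm_star (T : Ell2 K →L[ℂ] Ell2 K) : Rm (star T) = star (Rm T) := by simp [Rm, jj_star]
theorem Rm_star_eq (T : Ell2 K →L[ℂ] Ell2 K) : Rm (star T) = jj T := by simp [Rm]
@[simp] theorem Rm_lam (g : K) : Rm (lam K g) = rho K g⁻¹ := by simp [Rm, URep.star_apply]
@[simp] theorem Rm_rho (g : K) : Rm (rho K g) = lam K g⁻¹ := by simp [Rm, URep.star_apply]
@[simp] theorem norm_Rm (T : Ell2 K →L[ℂ] Ell2 K) : ‖Rm T‖ = ‖T‖ :=
  (norm_jj _).trans (_root_.norm_star T)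
theorem Rm_mem_RA (hT : T ∈ LA K) : Rm T ∈ RA K := jj_mem_RA (star_mem hT)

theorem Rm_hat_LA (hT : T ∈ LA K) : Rm T (dt 1) = T (dt 1) := by
  rw [Rm, jj_apply, Jc_dt, inv_one, star_hat_LA hT, Jc_Jc]


theorem Rm_apply_LA (hT : T ∈ LA K) (hS : S ∈ LA K) : Rm T (S (dt 1)) = S (T (dt 1)) := by
  rw [← mul_apply_eq_comp, ← LA_comm_RA hS (Rm_mem_RA hT), mul_apply_eq_comp, Rm_hat_LA hT]



theorem norm_star_hat_LA (hT : T ∈ LA K) : ‖star T (dt 1)‖ = ‖T (dt 1)‖ := by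
  rw [star_hat_LA hT, norm_Jc]


/-- `‖S T‖₂ ≤ ‖S‖₂ ‖T‖` -/
theorem norm_hat_mul_LA (hS : S ∈ LA K) (hT : T ∈ LA K) :
    ‖S (T (dt 1))‖ ≤ ‖T‖ * ‖S (dt 1)‖ := by
  rw [← Rm_apply_LA hT hS, ← norm_Rm]; exact le_opNorm _ _


/-! ### the trace -/

/-- the canonical trace -/
def tau (T : Ell2 K →L[ℂ] Ell2 K) : ℂ := T (dt 1) 1

theorem tau_eq_inner (T : Ell2 K →L[ℂ] Ell2 K) : tau T = ⟪dt 1, T (dt 1)⟫_ℂ := (inner_dt _ _).symm


theorem tau_add (S T : Ell2 K →L[ℂ] Ell2 K) : tau (S + T) = tau S + tau T := rfl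
theorem tau_sub (S T : Ell2 K →L[ℂ] Ell2 K) : tau (S - T) = tau S - tau T := rfl
theorem tau_smul (c : ℂ) (T : Ell2 K →L[ℂ] Ell2 K) : tau (c • T) = c * tau T := rfl
@[simp] theorem tau_zero : tau (0 : Ell2 K →L[ℂ] Ell2 K) = 0 := rfl
@[simp] theorem tau_one : tau (1 : Ell2 K →L[ℂ] Ell2 K) = 1 := dt_self _
theorem tau_sum {ι : Type*} (s : Finset ι) (T : ι → Ell2 K →L[ℂ] Ell2 K) :
    tau (∑ i ∈ s, T i) = ∑ i ∈ s, tau (T i) := by
  simp only [tau, sum_apply, l2_sum_apply]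


theorem tau_star_mul (S T : Ell2 K →L[ℂ] Ell2 K) : tau (star S * T) = ⟪S (dt 1), T (dt 1)⟫_ℂ := by
  rw [tau_eq_inner, mul_apply_eq_comp, star_eq_adjoint, adjoint_inner_right]

theorem tau_star_mul_self (T : Ell2 K →L[ℂ] Ell2 K) :
    tau (star T * T) = ((‖T (dt 1)‖ ^ 2 : ℝ) : ℂ) := by
  rw [tau_star_mul, inner_self_eq_norm_sq_to_K]; simp

theorem norm_tau_le (T : Ell2 K →L[ℂ] Ell2 K) : ‖tau T‖ ≤ ‖T (dt 1)‖ := norm_apply_le _ _

theorem norm_hat_le (T : Ell2 K →L[ℂ] Ell2 K) : ‖T (dt 1)‖ ≤ ‖T‖ := by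
  simpa using T.le_opNorm (dt 1)


theorem tau_mul_comm_LA (hS : S ∈ LA K) (hT : T ∈ LA K) : tau (S * T) = tau (T * S) := by
  conv_lhs => rw [← star_star S]
  conv_rhs => rw [← star_star T]
  rw [tau_star_mul, tau_star_mul, star_hat_LA hS, star_hat_LA hT, inner_Jc_left]



theorem tau_nonneg (hT : 0 ≤ T) : 0 ≤ tau T := by
  rw [tau_eq_inner]
  exact ((nonneg_iff_isPositive T).1 hT).inner_nonneg_right _


theorem tau_proj {p : Ell2 K →L[ℂ] Ell2 K} (h1 : p * p = p) (h2 : star p = p) :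
    tau p = ((‖p (dt 1)‖ ^ 2 : ℝ) : ℂ) := by
  rw [← tau_star_mul_self, h2, h1]

/-- a projection of `L(K)` of trace one is the identity -/
theorem proj_eq_one {p : Ell2 K →L[ℂ] Ell2 K} (hp : p ∈ LA K) (h1 : p * p = p) (h2 : star p = p)
    (h : 1 ≤ ‖p (dt 1)‖) : p = 1 := by
  have e : ‖(1 - p) (dt 1)‖ ^ 2 = 1 - ‖p (dt 1)‖ ^ 2 := by
    have := tau_proj (p := 1 - p) (by simp [mul_sub, sub_mul, h1]) (by simp [h2])
    rw [tau_sub, tau_one, tau_proj h1 h2] at this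
    exact_mod_cast this.symm
  have h0 : ‖(1 - p) (dt 1)‖ = 0 := by
    have : ‖(1 - p) (dt 1)‖ ^ 2 ≤ 0 := by nlinarith
    exact pow_eq_zero_iff two_ne_zero |>.1 (le_antisymm this (sq_nonneg _))
  have := LA_ext (sub_mem (one_mem _) hp) (zero_mem _) (norm_eq_zero.1 h0)
  exact (sub_eq_zero.1 this).symm

/-- Fourier partial sums converge in `L²` -/
theorem sum_lam_hat (s : Finset K) (c : K → ℂ) :
    (∑ g ∈ s, c g • lam K g) (dt 1) = ∑ g ∈ s, c g • dt g := by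
  simp

theorem exists_span_approx (ξ : Ell2 K) {ε : ℝ} (hε : 0 < ε) :
    ∃ b ∈ (lam K).span, ‖ξ - b (dt 1)‖ < ε := by
  obtain ⟨s, hs⟩ := exists_finset_approx ξ hε
  exact ⟨_, URep.mem_span.2 ⟨s, ξ, rfl⟩, by rw [sum_lam_hat]; exact hs s le_rfl⟩

end Crest.Agent.N111
end
end

-- ▼ part N111/VN/Kap

/-!
# Row 111, von Neumann toolbox III: Kaplansky approximants, averaging over a group,
the conjugation representation, a noncommutative Egorov lemma.
-/

set_option autoImplicit false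

noncomputable section

namespace Crest.Agent.N111

open scoped InnerProductSpace ComplexConjugate ENNReal ComplexOrder
open ContinuousLinearMap Crest.OperatorAlgebra Filter Topology

section general

variable {H : Type*} [NormedAddCommGroup H] [InnerProductSpace ℂ H] [CompleteSpace H]

theorem norm_le_one_of_star_mul_le {c : H →L[ℂ] H} (h : star c * c ≤ 1) : ‖c‖ ≤ 1 := by
  have h1 : ‖star c * c‖ ≤ 1 :=
    (CStarAlgebra.norm_le_one_iff_of_nonneg _ (star_mul_self_nonneg c)).2 h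
  rw [CStarRing.norm_star_mul_self] at h1
  nlinarith [norm_nonneg c]

theorem star_mul_le_one {c : H →L[ℂ] H} (h : ‖c‖ ≤ 1) : star c * c ≤ 1 := by
  refine (CStarAlgebra.norm_le_one_iff_of_nonneg _ (star_mul_self_nonneg c)).1 ?_
  rw [CStarRing.norm_star_mul_self]
  nlinarith [norm_nonneg c]

open R119.KapBi946 in
/-- **Kaplansky's density theorem** -/
theorem kaplansky (N : StarSubalgebra ℂ (H →L[ℂ] H)) {m : H →L[ℂ] H}
    (hm : m ∈ Set.centralizer (Set.centralizer (N : Set (H →L[ℂ] H)))) (h1 : ‖m‖ ≤ 1)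
    (Z : Finset H) {ε : ℝ} (hε : 0 < ε) :
    ∃ w ∈ N, ‖w‖ ≤ 1 ∧ ∀ ζ ∈ Z, ‖(w - m) ζ‖ < ε ∧ ‖star (w - m) ζ‖ < ε := by
  classical
  obtain ⟨T, hTN, hT⟩ := exists_net (N := N) (fun _ : Unit => m) fun _ => hm
  have hc := SSTends.corr hT (by simpa [colS] using star_mul_le_one h1)
    (by simpa [rowS] using star_mul_le_one (c := star m) (by rwa [_root_.norm_star])) ()
  have h2 : ∀ ζ ∈ Z, ∀ᶠ x in (atTop : Filter (Finset H × ℕ)),
      ‖(corr (T x) () - m) ζ‖ < ε / 2 ∧ ‖star (corr (T x) () - m) ζ‖ < ε / 2 := by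
    intro ζ _
    have h2 := Metric.tendsto_nhds.1 (hc.str.tends ζ) _ (half_pos hε)
    have h3 := Metric.tendsto_nhds.1 (hc.sts.tends ζ) _ (half_pos hε)
    filter_upwards [h2, h3] with x hx2 hx3
    rw [dist_eq_norm] at hx2 hx3
    exact ⟨hx2, by rwa [star_sub]⟩
  obtain ⟨x, hx⟩ := ((Finset.eventually_all Z).2 h2).exists
  set c := corr (T x) () with hcdef
  have hc1 : ‖c‖ ≤ 1 := norm_le_one_of_star_mul_le (by simpa [colS] using colS_corr_le (T x))
  have hcN : c ∈ N.topologicalClosure := by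
    have := N.isClosed_topologicalClosure
    have h0 : T x () ∈ N.topologicalClosure := N.le_topologicalClosure (hTN x ())
    refine mul_mem (mul_mem (cfc_mem _ ?_) h0) (cfc_mem _ ?_)
    · exact sum_mem fun _ _ => mul_mem h0 (star_mem h0)
    · exact sum_mem fun _ _ => mul_mem (star_mem h0) h0
  set B : ℝ := ∑ ζ ∈ Z, ‖ζ‖ + 1
  have hB : ∀ ζ ∈ Z, ‖ζ‖ ≤ B := fun ζ h =>
    (Finset.single_le_sum (f := fun ζ : H => ‖ζ‖) (fun _ _ => norm_nonneg _) h).trans (by simp [B])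
  have hB0 : 0 < B := by positivity
  set δ : ℝ := ε / (4 * B)
  have hδ : 0 < δ := by positivity
  obtain ⟨w, hw, hwc⟩ := Metric.mem_closure_iff.1 hcN δ hδ
  rw [dist_eq_norm] at hwc
  have hw1 : ‖w‖ ≤ 1 + δ := by
    have := norm_sub_norm_le w c
    rw [norm_sub_rev] at this
    linarith
  set t : ℝ := (1 + δ)⁻¹
  have ht : t * (1 + δ) = 1 := inv_mul_cancel₀ (by positivity)
  have ht0 : 0 < t := by positivity
  have hn : ‖(t : ℂ) • w - c‖ ≤ 2 * δ := by
    have e : (t : ℂ) • w - c = -((t * δ : ℝ) : ℂ) • w + (w - c) := by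
      have : (t : ℂ) = 1 - ((t * δ : ℝ) : ℂ) := by exact_mod_cast (by linarith)
      rw [neg_smul]; conv_lhs => rw [this, sub_smul, one_smul]
      abel
    rw [e]
    refine (norm_add_le _ _).trans ?_
    rw [norm_smul, norm_neg, Complex.norm_real, Real.norm_of_nonneg (by positivity),
      norm_sub_rev]
    nlinarith [mul_le_mul_of_nonneg_left hw1 (mul_pos ht0 hδ).le]
  have key : ∀ (A : H →L[ℂ] H), ‖A‖ ≤ 2 * δ → ∀ ζ ∈ Z, ‖A ζ‖ ≤ ε / 2 := fun A hA ζ h => by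
    calc ‖A ζ‖ ≤ 2 * δ * B := (A.le_opNorm ζ).trans (by gcongr; exact hB ζ h)
      _ = ε / 2 := by simp only [δ]; field_simp; norm_num
  refine ⟨(t : ℂ) • w, SMulMemClass.smul_mem _ hw, ?_, fun ζ h => ⟨?_, ?_⟩⟩
  · rw [norm_smul, Complex.norm_real, Real.norm_of_nonneg ht0.le]
    nlinarith [mul_le_mul_of_nonneg_left hw1 ht0.le]
  · have e : (t : ℂ) • w - m = ((t : ℂ) • w - c) + (c - m) := by abel
    rw [e, add_apply]
    linarith [norm_add_le (((t : ℂ) • w - c) ζ) ((c - m) ζ), key _ hn ζ h, (hx ζ h).1]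
  · have e : (t : ℂ) • w - m = ((t : ℂ) • w - c) + (c - m) := by abel
    rw [e, star_add, add_apply]
    linarith [norm_add_le (star ((t : ℂ) • w - c) ζ) (star (c - m) ζ),
      key _ ((_root_.norm_star _).trans_le hn) ζ h, (hx ζ h).2]

variable {K : Type*} [Group K]

/-- Kaplansky approximants in the span of a representation -/
theorem URep.kaplansky (σ : URep K H) {m : H →L[ℂ] H}
    (hm : m ∈ Set.centralizer (σ.comm : Set (H →L[ℂ] H))) (h1 : ‖m‖ ≤ 1)
    (Z : Finset H) {ε : ℝ} (hε : 0 < ε) :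
    ∃ w ∈ σ.span, ‖w‖ ≤ 1 ∧ ∀ ζ ∈ Z, ‖(w - m) ζ‖ < ε ∧ ‖star (w - m) ζ‖ < ε :=
  N111.kaplansky σ.span (by rwa [σ.centralizer_span]) h1 Z hε

/-- **Mean ergodic theorem** of Alaoglu and Birkhoff -/
theorem URep.exists_avg (σ : URep K H) (v : H) {ε : ℝ} (hε : 0 < ε) :
    ∃ (ι : Type) (_ : Fintype ι) (w : ι → ℝ) (g : ι → K), (∀ i, 0 ≤ w i) ∧ ∑ i, w i = 1 ∧
      ‖∑ i, (w i : ℂ) • σ (g i) v - σ.P v‖ < ε := by
  let O : Set H := Set.range fun g => σ g v
  let C : Set H := closure (convexHull ℝ O)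
  have hCc : Convex ℝ C := (convex_convexHull ℝ O).closure
  have hne : C.Nonempty := ⟨σ 1 v, subset_closure (subset_convexHull ℝ O ⟨1, rfl⟩)⟩
  have hinv : ∀ g, ∀ x ∈ C, σ g x ∈ C := by
    intro g x hx
    refine map_mem_closure (σ g).continuous hx fun y hy => ?_
    have h1 : σ g '' convexHull ℝ O = convexHull ℝ (σ g '' O) :=
      ((σ g).restrictScalars ℝ : H →ₗ[ℝ] H).image_convexHull O
    have h2 : σ g y ∈ convexHull ℝ (σ g '' O) := h1 ▸ ⟨y, hy, rfl⟩
    refine convexHull_mono ?_ h2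
    rintro _ ⟨_, ⟨h, rfl⟩, rfl⟩
    exact ⟨g * h, σ.mul_apply g h v⟩
  have hP : ∀ x ∈ C, σ.P x = σ.P v := by
    intro x hx
    refine closure_minimal (t := {x | σ.P x = σ.P v}) ?_
      (isClosed_eq σ.P.continuous continuous_const) hx
    refine convexHull_min ?_ ?_
    · rintro _ ⟨g, rfl⟩
      refine ext_inner_left ℂ fun y => ?_
      change ⟪y, σ.P (σ g v)⟫_ℂ = _
      rw [← σ.inner_P_left, ← σ.inner_P_left, σ.inner_right, σ.P_mem y g⁻¹]
    · intro a ha b hb s t _ _ hst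
      change σ.P _ = _
      rw [map_add, σ.P.map_smul_of_tower, σ.P.map_smul_of_tower, ha, hb, ← add_smul, hst, one_smul]
  let _ : InnerProductSpace ℝ H := InnerProductSpace.rclikeToReal ℂ H
  obtain ⟨x, hx, hmin⟩ := exists_norm_eq_iInf_of_complete_convex hne isClosed_closure.isComplete
    hCc (0 : H)
  have hle : ∀ y ∈ C, ‖x‖ ≤ ‖y‖ := fun y hy => by
    have := ciInf_le (f := fun w : C => ‖(0 : H) - w‖) ⟨0, by rintro _ ⟨w, rfl⟩; positivity⟩ ⟨y, hy⟩
    rw [← hmin] at this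
    simpa using this
  have hfix : x ∈ σ.fix := fun g => by
    have h1 := hle _ (hCc hx (hinv g x hx) (a := 1 / 2) (b := 1 / 2) (by norm_num) (by norm_num)
      (by norm_num))
    have h2 := parallelogram_law_with_norm ℂ x (σ g x)
    rw [← smul_add, norm_smul, Real.norm_of_nonneg (by norm_num)] at h1
    rw [σ.norm_map] at h2
    have h3 : ‖x - σ g x‖ * ‖x - σ g x‖ ≤ 0 := by nlinarith [norm_nonneg x]
    have h4 : ‖x - σ g x‖ = 0 := by nlinarith [norm_nonneg (x - σ g x)]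
    exact (sub_eq_zero.1 (norm_eq_zero.1 h4)).symm
  have hxv : σ.P v = x := by rw [← hP x hx, σ.P_of_mem hfix]
  obtain ⟨y, hy, hxy⟩ := Metric.mem_closure_iff.1 hx ε hε
  obtain ⟨ι, _, w, z, hw0, hw1, hz, rfl⟩ := mem_convexHull_iff_exists_fintype.1 hy
  choose g hg using hz
  refine ⟨ι, inferInstance, w, g, hw0, hw1, ?_⟩
  rw [hxv, ← dist_eq_norm, dist_comm]
  simpa only [hg, Complex.coe_smul] using hxy

/-- the resolvent `(1 + S)⁻¹` of a positive operator: the three estimates -/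
theorem exists_resolvent {S : H →L[ℂ] H} (hS : 0 ≤ S) :
    ∃ r : H →L[ℂ] H, r * (1 + S) = 1 ∧ (1 + S) * r = 1 ∧ (∀ ξ, ‖r ξ‖ ≤ ‖ξ‖) ∧
      (∀ ξ, RCLike.re ⟪r ξ, S (r ξ)⟫_ℂ ≤ ‖ξ‖ ^ 2) ∧
      ∀ ξ, ‖ξ - r ξ‖ ^ 2 ≤ RCLike.re ⟪ξ, S ξ⟫_ℂ := by
  have hu : IsUnit (1 + S) :=
    CStarAlgebra.isUnit_of_le 1 (le_add_of_nonneg_right hS)
  obtain ⟨u, hu⟩ := hu
  have hpos := (nonneg_iff_isPositive S).1 hS
  have h2 : (1 + S) * (↑u⁻¹ : H →L[ℂ] H) = 1 := by rw [← hu, Units.mul_inv]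
  have key : ∀ ξ, ∃ η, (↑u⁻¹ : H →L[ℂ] H) ξ = η ∧ ξ = η + S η := fun ξ =>
    ⟨_, rfl, (congrArg (fun T : H →L[ℂ] H => T ξ) h2).symm⟩
  refine ⟨↑u⁻¹, by rw [← hu, Units.inv_mul], h2, fun ξ => ?_, fun ξ => ?_, fun ξ => ?_⟩
  · obtain ⟨η, h, rfl⟩ := key ξ
    have := norm_add_sq (𝕜 := ℂ) η (S η)
    rw [h]
    nlinarith [hpos.re_inner_nonneg_right η, sq_nonneg ‖S η‖, norm_nonneg η,
      norm_nonneg (η + S η)]
  · obtain ⟨η, h, rfl⟩ := key ξ
    have := norm_add_sq (𝕜 := ℂ) η (S η)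
    rw [h]
    nlinarith [hpos.re_inner_nonneg_right η, sq_nonneg ‖S η‖, sq_nonneg ‖η‖]
  · obtain ⟨η, h, rfl⟩ := key ξ
    have e : ⟪η, S (S η)⟫_ℂ = ⟪S η, S η⟫_ℂ := (hpos.isSymmetric η (S η)).symm
    rw [h, add_sub_cancel_left, map_add, inner_add_left, inner_add_right, inner_add_right,
      map_add, map_add, map_add, e, inner_self_eq_norm_sq]
    nlinarith [hpos.re_inner_nonneg_right η, hpos.re_inner_nonneg_right (S η), sq_nonneg ‖S η‖]

omit [CompleteSpace H] in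
theorem norm_le_of_wtends {α : Type*} {l : Filter α} [l.NeBot] {T : α → H →L[ℂ] H}
    {T₀ : H →L[ℂ] H} (h : WTends l T T₀) {ξ : H} {C : ℝ} (hC : ∀ᶠ a in l, ‖T a ξ‖ ≤ C) :
    ‖T₀ ξ‖ ≤ C := by
  have hC0 : 0 ≤ C := by obtain ⟨a, ha⟩ := hC.exists; exact (norm_nonneg _).trans ha
  have h1 : ‖⟪T₀ ξ, T₀ ξ⟫_ℂ‖ ≤ ‖T₀ ξ‖ * C :=
    le_of_tendsto (h (T₀ ξ) ξ).norm (hC.mono fun a ha =>
      (norm_inner_le_norm _ _).trans (by gcongr))
  rw [inner_self_eq_norm_sq_to_K, norm_pow, RCLike.norm_ofReal, abs_norm, sq] at h1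
  rcases (norm_nonneg (T₀ ξ)).eq_or_lt with h0 | h0
  · rwa [← h0]
  · exact le_of_mul_le_mul_left h1 h0

omit [CompleteSpace H] in
theorem WTends.const_mul {α : Type*} {l : Filter α} {T : α → H →L[ℂ] H} {T₀ : H →L[ℂ] H}
    [CompleteSpace H] (h : WTends l T T₀) (A : H →L[ℂ] H) :
    WTends l (fun a => A * T a) (A * T₀) := fun w v => by
  simpa only [mul_apply_eq_comp, ← adjoint_inner_left] using h (adjoint A w) v

omit [CompleteSpace H] in
theorem WTends.mul_const {α : Type*} {l : Filter α} {T : α → H →L[ℂ] H} {T₀ : H →L[ℂ] H}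
    (h : WTends l T T₀) (A : H →L[ℂ] H) : WTends l (fun a => T a * A) (T₀ * A) :=
  fun w v => h w (A v)

omit [CompleteSpace H] in
theorem WTends.const_sub {α : Type*} {l : Filter α} {T : α → H →L[ℂ] H} {T₀ : H →L[ℂ] H}
    (h : WTends l T T₀) (A : H →L[ℂ] H) : WTends l (fun a => A - T a) (A - T₀) := fun w v => by
  simpa only [sub_apply, inner_sub_right] using (h w v).const_sub _

/-- **noncommutative Egorov lemma** -/
theorem URep.egorov (σ : URep K H) {y : ℕ → H →L[ℂ] H} (hy : ∀ k, y k ∈ σ.comm) (Ω : H) {η : ℝ}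
    (hη : 0 ≤ η) (h : ∀ N, ∑ k ∈ Finset.range N, ‖y k Ω‖ ^ 2 ≤ η ^ 2) :
    ∃ e ∈ σ.comm, ‖e‖ ≤ 1 ∧ ‖(1 - e) Ω‖ ≤ η ∧ ∀ k, ‖y k * e‖ ≤ 1 := by
  let S : ℕ → H →L[ℂ] H := fun N => ∑ k ∈ Finset.range N, star (y k) * y k
  have hS : ∀ N, 0 ≤ S N := fun N => Finset.sum_nonneg fun _ _ => star_mul_self_nonneg _
  have hSc : ∀ N, S N ∈ σ.comm := fun N => sum_mem fun k _ => mul_mem (star_mem (hy k)) (hy k)
  have hSq : ∀ N ξ, RCLike.re ⟪ξ, S N ξ⟫_ℂ = ∑ k ∈ Finset.range N, ‖y k ξ‖ ^ 2 := fun N ξ => by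
    simp only [S, sum_apply, inner_sum, map_sum, mul_apply_eq_comp, star_eq_adjoint,
      adjoint_inner_right, inner_self_eq_norm_sq]
  choose r hr1 hr2 hr3 hr4 hr5 using fun N => exists_resolvent (hS N)
  have hrc : ∀ N, r N ∈ σ.comm := fun N g => by
    have e : σ g * (1 + S N) = (1 + S N) * σ g := (add_mem (one_mem _) (hSc N) : _ ∈ σ.comm) g
    calc σ g * r N = r N * (1 + S N) * σ g * r N := by rw [hr1, one_mul]
      _ = r N * σ g * ((1 + S N) * r N) := by rw [mul_assoc (r N), ← e]; simp only [mul_assoc]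
      _ = _ := by rw [hr2, mul_one]
  obtain ⟨e, he1, he⟩ := exists_wtends (hyperfilter ℕ) (T := r) (C := 1)
    (Eventually.of_forall fun N => opNorm_le_bound _ zero_le_one fun ξ => by simpa using hr3 N ξ)
  refine ⟨e, σ.mem_comm_of_wtends he (Eventually.of_forall hrc), he1, ?_, fun k => ?_⟩
  · refine norm_le_of_wtends (he.const_sub 1) (Eventually.of_forall fun N => ?_)
    refine (pow_le_pow_iff_left₀ (norm_nonneg _) hη two_ne_zero).1 ?_
    exact (hr5 N Ω).trans ((hSq N Ω).trans_le (h N))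
  · refine opNorm_le_bound _ zero_le_one fun ξ => norm_le_of_wtends (he.const_mul (y k)) ?_
    have : ∀ᶠ N in hyperfilter ℕ, k < N :=
      (Nat.hyperfilter_le_atTop) (eventually_gt_atTop k)
    filter_upwards [this] with N hN
    rw [one_mul]
    refine (pow_le_pow_iff_left₀ (norm_nonneg _) (norm_nonneg _) two_ne_zero).1 ?_
    refine le_trans ?_ (hr4 N ξ)
    rw [hSq]
    exact Finset.single_le_sum (f := fun j => ‖y j (r N ξ)‖ ^ 2) (fun _ _ => sq_nonneg _)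
      (Finset.mem_range.2 hN)

end general

variable {K : Type*} [Group K]

/-- finitely supported contractions approximating a contraction of `L(K)` in `L²` -/
theorem exists_span_contraction {T : Ell2 K →L[ℂ] Ell2 K} (hT : T ∈ LA K) (h1 : ‖T‖ ≤ 1) {ε : ℝ}
    (hε : 0 < ε) : ∃ w ∈ (lam K).span, ‖w‖ ≤ 1 ∧ ‖(w - T) (dt 1)‖ < ε := by
  obtain ⟨w, hw, hw1, h⟩ := (lam K).kaplansky (m := T) (by rwa [centralizer_RA]) h1 {dt 1} hε
  exact ⟨w, hw, hw1, (h _ (Finset.mem_singleton_self _)).1⟩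


/-- the conjugation representation -/
def adr (K : Type*) [Group K] : URep K (Ell2 K) :=
  URep.mk' (fun g => lam K g * rho K g) (by simp)
    (fun g h => ext_dt fun x => by simp [mul_assoc]) (fun g ξ => by simp)

@[simp] theorem adr_apply (g : K) (ξ : Ell2 K) (x : K) : adr K g ξ x = ξ (g⁻¹ * x * g) := rfl

theorem adr_eq (g : K) (ξ : Ell2 K) : adr K g ξ = lam K g (rho K g ξ) := rfl

theorem conj_hat_LA {T : Ell2 K →L[ℂ] Ell2 K} (hT : T ∈ LA K) (g : K) :
    (lam K g * T * lam K g⁻¹) (dt 1) = adr K g (T (dt 1)) := by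
  rw [adr_eq, URep.comm_apply hT]; simp


end Crest.Agent.N111
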