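import Crest.Agent.N111.VN.Kap
import Crest.Agent.N111.Grp.ICC

-- ▼ part N111/VN/Iso
section

/-!
# Row 111, von Neumann toolbox IV: a `*`-isomorphism `L(Λ) ≅ p L(K) p` scales the trace.
-/

set_option autoImplicit false

noncomputable section

namespace Crest.Agent.N111

open scoped InnerProductSpace ComplexConjugate ENNReal ComplexOrder
open ContinuousLinearMap Crest.OperatorAlgebra Filter Topology

variable {Λ K : Type*} [Group Λ] [Group K]

/-! ### conjugation invariant vectors -/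

theorem adr_fix (hK : IsICC K) {ξ : Ell2 K} (h : ξ ∈ (adr K).fix) : ξ = ξ 1 • dt 1 := by
  refine l2_ext fun g => ?_
  by_cases hg : g = 1
  · simp [hg]
  · rw [l2_smul_apply, dt_ne hg, mul_zero]
    refine icc_ell2_eq_zero hK ⊤ ξ (fun k _ x => ?_) hg
    conv_rhs => rw [← h k⁻¹]
    simp

theorem dt_one_mem_fix : dt 1 ∈ (adr K).fix := fun g => by simp [adr_eq]

theorem adr_P (hK : IsICC K) (ξ : Ell2 K) : (adr K).P ξ = ξ 1 • dt 1 := by
  rw [adr_fix hK ((adr K).P_mem ξ), ← inner_dt, (adr K).inner_P_of_mem dt_one_mem_fix, inner_dt]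

/-- convex combination of conjugates -/
def cavg {H L ι : Type*} [NormedAddCommGroup H] [InnerProductSpace ℂ H] [Group L] [Fintype ι]
    (σ : URep L H) (w : ι → ℝ) (g : ι → L) (x : H →L[ℂ] H) : H →L[ℂ] H :=
  ∑ i, (w i : ℂ) • (σ (g i) * x * σ (g i)⁻¹)

theorem norm_cavg_le {H L ι : Type*} [NormedAddCommGroup H] [InnerProductSpace ℂ H] [Group L]
    [Fintype ι] (σ : URep L H) {w : ι → ℝ} (g : ι → L) (hw0 : ∀ i, 0 ≤ w i) (hw1 : ∑ i, w i = 1)
    (x : H →L[ℂ] H) : ‖cavg σ w g x‖ ≤ ‖x‖ := by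
  refine (norm_sum_le _ _).trans ?_
  calc _ ≤ ∑ i, w i * ‖x‖ := Finset.sum_le_sum fun i _ => by
        rw [norm_smul, Complex.norm_real, Real.norm_of_nonneg (hw0 i)]
        refine mul_le_mul_of_nonneg_left (opNorm_le_bound _ (norm_nonneg _) fun v => ?_) (hw0 i)
        simpa using x.le_opNorm (σ (g i)⁻¹ v)
    _ = ‖x‖ := by rw [← Finset.sum_mul, hw1, one_mul]

theorem cavg_mem_LA {ι : Type*} [Fintype ι] (w : ι → ℝ) (g : ι → K) {x : Ell2 K →L[ℂ] Ell2 K}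
    (hx : x ∈ LA K) : cavg (lam K) w g x ∈ LA K :=
  sum_mem fun _ _ => SMulMemClass.smul_mem _ (mul_mem (mul_mem (lam_mem_LA _) hx) (lam_mem_LA _))

/-- averaging conjugates in an ICC group -/
theorem exists_cavg (hK : IsICC K) {x : Ell2 K →L[ℂ] Ell2 K} (hx : x ∈ LA K) {ε : ℝ}
    (hε : 0 < ε) : ∃ (ι : Type) (_ : Fintype ι) (w : ι → ℝ) (g : ι → K), (∀ i, 0 ≤ w i) ∧
      ∑ i, w i = 1 ∧ ‖(cavg (lam K) w g x - tau x • 1) (dt 1)‖ < ε := by
  obtain ⟨ι, _, w, g, h0, h1, h⟩ := (adr K).exists_avg (x (dt 1)) hε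
  refine ⟨ι, inferInstance, w, g, h0, h1, ?_⟩
  rw [adr_P hK] at h
  simpa only [cavg, sub_apply, sum_apply, smul_apply, conj_hat_LA hx, one_apply_eq_self, tau]
    using h


/-! ### isomorphisms onto a corner -/

/-- a `*`-isomorphism of `L(Λ)` onto the corner `p L(K) p` -/
structure Iso (Λ K : Type*) [Group Λ] [Group K] where
  p : Ell2 K →L[ℂ] Ell2 K
  p_mem : p ∈ LA K
  p_mul_p : p * p = p
  star_p : star p = p
  φ : (Ell2 Λ →L[ℂ] Ell2 Λ) → Ell2 K →L[ℂ] Ell2 K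
  mem : ∀ {x}, x ∈ LA Λ → φ x ∈ LA K
  p_mul : ∀ {x}, x ∈ LA Λ → p * φ x = φ x
  mul_p : ∀ {x}, x ∈ LA Λ → φ x * p = φ x
  surj : ∀ {y}, y ∈ LA K → ∃ x ∈ LA Λ, φ x = p * y * p
  inj : ∀ {x y}, x ∈ LA Λ → y ∈ LA Λ → φ x = φ y → x = y
  add : ∀ {x y}, x ∈ LA Λ → y ∈ LA Λ → φ (x + y) = φ x + φ y
  mul : ∀ {x y}, x ∈ LA Λ → y ∈ LA Λ → φ (x * y) = φ x * φ y
  smul : ∀ (c : ℂ) {x}, x ∈ LA Λ → φ (c • x) = c • φ x
  map_star : ∀ {x}, x ∈ LA Λ → φ (star x) = star (φ x)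

/-- the isomorphism onto a corner from the frozen definition -/
def Iso.ofCorner {p : Ell2 K →L[ℂ] Ell2 K} (hp : p ∈ groupVonNeumann K) (h1 : p * p = p)
    (h2 : star p = p) {φ : (Ell2 Λ →L[ℂ] Ell2 Λ) → Ell2 K →L[ℂ] Ell2 K}
    (h : IsStarAlgIso (groupVonNeumann Λ) (corner (groupVonNeumann K) p) φ) : Iso Λ K where
  p := p
  p_mem := mem_groupVonNeumann.1 hp
  p_mul_p := h1
  star_p := h2
  φ := φ
  mem hx := by
    obtain ⟨m, hm, e⟩ := h.1.mapsTo (mem_groupVonNeumann.2 hx)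
    rw [e]
    exact mul_mem (mul_mem (mem_groupVonNeumann.1 hp) (mem_groupVonNeumann.1 hm))
      (mem_groupVonNeumann.1 hp)
  p_mul hx := by
    obtain ⟨m, -, e⟩ := h.1.mapsTo (mem_groupVonNeumann.2 hx)
    rw [e, ← mul_assoc, ← mul_assoc, h1]
  mul_p hx := by
    obtain ⟨m, -, e⟩ := h.1.mapsTo (mem_groupVonNeumann.2 hx)
    rw [e, mul_assoc, h1]
  surj hy := by
    obtain ⟨x, hx, e⟩ := h.1.surjOn ⟨_, mem_groupVonNeumann.2 hy, rfl⟩
    exact ⟨x, mem_groupVonNeumann.1 hx, e⟩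
  inj hx hy e := h.1.injOn (mem_groupVonNeumann.2 hx) (mem_groupVonNeumann.2 hy) e
  add hx hy := (h.2.1 _ (mem_groupVonNeumann.2 hx) _ (mem_groupVonNeumann.2 hy)).1
  mul hx hy := (h.2.1 _ (mem_groupVonNeumann.2 hx) _ (mem_groupVonNeumann.2 hy)).2
  smul c _ hx := h.2.2.1 c _ (mem_groupVonNeumann.2 hx)
  map_star hx := h.2.2.2 _ (mem_groupVonNeumann.2 hx)

theorem corner_one (K : Type*) [Group K] : corner (groupVonNeumann K) 1 = groupVonNeumann K := by
  ext x; simp [corner]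

/-- the isomorphism onto the whole algebra from the frozen definition -/
def Iso.ofIso {φ : (Ell2 Λ →L[ℂ] Ell2 Λ) → Ell2 K →L[ℂ] Ell2 K}
    (h : IsStarAlgIso (groupVonNeumann Λ) (groupVonNeumann K) φ) : Iso Λ K :=
  Iso.ofCorner (p := 1) (mem_groupVonNeumann.2 (one_mem _)) (mul_one _) (star_one _)
    (by rwa [corner_one])

theorem Iso.ofIso_p {φ : (Ell2 Λ →L[ℂ] Ell2 Λ) → Ell2 K →L[ℂ] Ell2 K}
    (h : IsStarAlgIso (groupVonNeumann Λ) (groupVonNeumann K) φ) : (Iso.ofIso h).p = 1 := rfl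

namespace Iso

variable (θ : Iso Λ K) {x y : Ell2 Λ →L[ℂ] Ell2 Λ}

theorem zero : θ.φ 0 = 0 := by simpa using θ.smul 0 (zero_mem (LA Λ))

theorem one : θ.φ 1 = θ.p := by
  obtain ⟨x, hx, e⟩ := θ.surj (one_mem (LA K))
  rw [mul_one, θ.p_mul_p] at e
  rw [← θ.mul_p (one_mem _), ← e, ← θ.mul (one_mem _) hx, one_mul]

theorem sub (hx : x ∈ LA Λ) (hy : y ∈ LA Λ) : θ.φ (x - y) = θ.φ x - θ.φ y := by
  rw [eq_sub_iff_add_eq, ← θ.add (sub_mem hx hy) hy, sub_add_cancel]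

theorem sum {ι : Type*} (s : Finset ι) {x : ι → Ell2 Λ →L[ℂ] Ell2 Λ} (hx : ∀ i ∈ s, x i ∈ LA Λ) :
    θ.φ (∑ i ∈ s, x i) = ∑ i ∈ s, θ.φ (x i) := by
  classical
  induction s using Finset.induction_on with
  | empty => simpa using θ.zero
  | insert a s ha ih =>
    rw [Finset.sum_insert ha, Finset.sum_insert ha, θ.add (hx a (by simp))
      (sum_mem fun i hi => hx i (by simp [hi])), ih fun i hi => hx i (by simp [hi])]

theorem eq_zero (hx : x ∈ LA Λ) (h : θ.φ x = 0) : x = 0 :=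
  θ.inj hx (zero_mem _) (h.trans θ.zero.symm)

/-- the bundled homomorphism -/
def hom : LA Λ →⋆ₙₐ[ℂ] (Ell2 K →L[ℂ] Ell2 K) where
  toFun x := θ.φ x
  map_smul' c x := θ.smul c x.2
  map_zero' := θ.zero
  map_add' x y := θ.add x.2 y.2
  map_mul' x y := θ.mul x.2 y.2
  map_star' x := θ.map_star x.2

theorem norm_φ (hx : x ∈ LA Λ) : ‖θ.φ x‖ = ‖x‖ := by
  have := (rho Λ).isClosed_comm
  exact NonUnitalStarAlgHom.norm_map θ.hom (fun a b h => Subtype.ext (θ.inj a.2 b.2 h)) ⟨x, hx⟩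

theorem p_ne_zero : θ.p ≠ 0 := fun h => by
  have := θ.eq_zero (one_mem _) (θ.one.trans h)
  simpa using congrArg tau this

theorem p_hat_ne_zero : θ.p (dt 1) ≠ 0 := fun h => θ.p_ne_zero (LA_ext θ.p_mem (zero_mem _) h)

/-- the trace of `p` -/
def t : ℝ := ‖θ.p (dt 1)‖ ^ 2

theorem t_pos : 0 < θ.t := pow_pos (norm_pos_iff.2 θ.p_hat_ne_zero) 2

theorem tau_p : tau θ.p = θ.t := tau_proj θ.p_mul_p θ.star_p

theorem norm_p_le : ‖θ.p‖ ≤ 1 := by
  rw [← θ.one, θ.norm_φ (one_mem _)]; exact norm_id_le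


theorem p_eq_one (h : 1 ≤ θ.t) : θ.p = 1 :=
  proj_eq_one θ.p_mem θ.p_mul_p θ.star_p (by
    by_contra h'
    have := pow_lt_one₀ (norm_nonneg _) (not_le.1 h') two_ne_zero
    exact absurd h (not_le.2 this))

/-- the corner is weakly closed -/
theorem exists_eq_of_wtends {α : Type*} {l : Filter α} [l.NeBot] {x : α → Ell2 Λ →L[ℂ] Ell2 Λ}
    (hx : ∀ a, x a ∈ LA Λ) {b : Ell2 K →L[ℂ] Ell2 K} (h : WTends l (fun a => θ.φ (x a)) b) :
    ∃ a ∈ LA Λ, θ.φ a = b := by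
  obtain ⟨a, ha, e⟩ := θ.surj ((rho K).mem_comm_of_wtends h
    (Eventually.of_forall fun a => θ.mem (hx a)))
  refine ⟨a, ha, e.trans (WTends.unique (l := l) ?_ h)⟩
  simpa only [θ.p_mul (hx _), θ.mul_p (hx _)] using (h.const_mul θ.p).mul_const θ.p

/-- normality: `τ ∘ φ` is `L²`-continuous on the unit ball -/
theorem tau_cont {ε : ℝ} (hε : 0 < ε) : ∃ δ > 0, ∀ x ∈ LA Λ, ‖x‖ ≤ 1 → ‖x (dt 1)‖ ≤ δ →
    ‖tau (θ.φ x)‖ ≤ ε := by
  by_contra hcon
  push Not at hcon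
  choose x hx hx1 hx2 hx3 using fun k : ℕ => hcon ((1 / 4) ^ k) (by positivity)
  obtain ⟨b, -, hb⟩ := exists_wtends (hyperfilter ℕ) (T := fun k => θ.φ (x k)) (C := 1)
    (Eventually.of_forall fun k => (θ.norm_φ (hx k)).trans_le (hx1 k))
  obtain ⟨a, ha, rfl⟩ := θ.exists_eq_of_wtends hx hb
  have hε' : ε ≤ ‖tau (θ.φ a)‖ := by
    have := (hb (dt 1) (dt 1)).norm
    simp only [← tau_eq_inner] at this
    exact ge_of_tendsto this (Eventually.of_forall fun k => (hx3 k).le)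
  have key : ∀ N : ℕ, ‖a (dt 1)‖ ≤ ‖a‖ * (2 * (1 / 2) ^ N) := by
    intro N
    obtain ⟨e, he, -, he2, he3⟩ := (rho Λ).egorov (y := fun k => (2 : ℂ) ^ (k + N) • x (k + N))
      (fun k => SMulMemClass.smul_mem _ (hx _)) (dt 1) (η := 2 * (1 / 2) ^ N) (by positivity)
      (fun M => by
        calc _ ≤ ∑ k ∈ Finset.range M, (1 / 2 : ℝ) ^ k * ((1 / 2) ^ N) ^ 2 :=
              Finset.sum_le_sum fun k _ => by
                have h1 : ‖((2 : ℂ) ^ (k + N) • x (k + N)) (dt 1)‖ ≤ (1 / 2) ^ k * (1 / 2) ^ N := by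
                  rw [smul_apply, norm_smul, norm_pow, Complex.norm_two, ← pow_add]
                  refine (mul_le_mul_of_nonneg_left (hx2 _) (by positivity)).trans_eq ?_
                  rw [← mul_pow]; norm_num
                refine (pow_le_pow_left₀ (norm_nonneg _) h1 2).trans ?_
                rw [mul_pow, sq ((1 / 2 : ℝ) ^ k), mul_assoc]
                refine mul_le_mul_of_nonneg_left ?_ (by positivity)
                exact mul_le_of_le_one_left (by positivity) (pow_le_one₀ (by norm_num) (by norm_num))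
          _ ≤ _ := by
              rw [← Finset.sum_mul, mul_pow]
              refine mul_le_mul_of_nonneg_right ((sum_le_hasSum _ (fun _ _ => by positivity)
                hasSum_geometric_two).trans (by norm_num)) (by positivity))
    have h0 : θ.φ a * θ.φ e = 0 := by
      refine WTends.unique (l := (hyperfilter ℕ : Filter ℕ)) (hb.mul_const (θ.φ e)) fun w v => ?_
      rw [zero_apply, inner_zero_right]
      refine squeeze_zero_norm' (a := fun k => ‖w‖ * ((1 / 2) ^ k * ‖v‖)) ?_ ?_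
      · filter_upwards [Nat.hyperfilter_le_atTop (eventually_ge_atTop N)] with k hk
        obtain ⟨k, rfl⟩ := Nat.exists_eq_add_of_le' hk
        refine (norm_inner_le_norm _ _).trans (mul_le_mul_of_nonneg_left ?_ (norm_nonneg _))
        refine (le_opNorm _ _).trans (mul_le_mul_of_nonneg_right ?_ (norm_nonneg _))
        have h3 := he3 k
        rw [smul_mul_assoc, norm_smul, norm_pow, Complex.norm_two] at h3
        rw [← θ.mul (hx _) he, θ.norm_φ (mul_mem (hx _) he), one_div, inv_pow,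
          ← one_div, le_div_iff₀' (by positivity)]
        exact h3
      · have := ((tendsto_pow_atTop_nhds_zero_of_lt_one (r := (1 / 2 : ℝ)) (by norm_num)
          (by norm_num)).mul_const ‖v‖).const_mul ‖w‖
        simpa using this.mono_left Nat.hyperfilter_le_atTop
    rw [← θ.mul ha he] at h0
    have h1 : a (dt 1) = a ((1 - e) (dt 1)) := by
      rw [← mul_apply_eq_comp, mul_sub, θ.eq_zero (mul_mem ha he) h0, mul_one, sub_zero]
    rw [h1]
    exact (a.le_opNorm _).trans (by gcongr)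
  have h0 : ‖a (dt 1)‖ ≤ 0 := by
    have := ((tendsto_pow_atTop_nhds_zero_of_lt_one (r := (1 / 2 : ℝ)) (by norm_num)
      (by norm_num)).const_mul 2).const_mul ‖a‖
    simpa using ge_of_tendsto' this key
  rw [LA_ext ha (zero_mem _) (norm_le_zero_iff.1 h0), θ.zero] at hε'
  simp only [tau_zero, norm_zero] at hε'
  linarith

theorem tau_conj (hx : x ∈ LA Λ) (g : Λ) : tau (θ.φ (lam Λ g * x * lam Λ g⁻¹)) = tau (θ.φ x) := by
  have h1 := mul_mem (lam_mem_LA g) hx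
  rw [θ.mul h1 (lam_mem_LA _), tau_mul_comm_LA (θ.mem h1) (θ.mem (lam_mem_LA _)),
    ← θ.mul (lam_mem_LA _) h1, ← mul_assoc, URep.inv_mul_self, one_mul]

theorem tau_cavg {ι : Type*} [Fintype ι] {w : ι → ℝ} (hw : ∑ i, w i = 1) (g : ι → Λ)
    (hx : x ∈ LA Λ) : tau (θ.φ (cavg (lam Λ) w g x)) = tau (θ.φ x) := by
  have h : ∀ i, lam Λ (g i) * x * lam Λ (g i)⁻¹ ∈ LA Λ := fun i =>
    mul_mem (mul_mem (lam_mem_LA _) hx) (lam_mem_LA _)
  rw [cavg, θ.sum _ fun i _ => SMulMemClass.smul_mem _ (h i), tau_sum]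
  simp only [θ.smul _ (h _), tau_smul, θ.tau_conj hx]
  rw [← Finset.sum_mul, ← Complex.ofReal_sum, hw]; simp

theorem tau_eq_zero (hΛ : IsICC Λ) (hx : x ∈ LA Λ) (h1 : ‖x‖ ≤ 1) (h0 : tau x = 0) :
    tau (θ.φ x) = 0 := by
  refine norm_le_zero_iff.1 (le_of_forall_pos_le_add fun ε hε => ?_)
  obtain ⟨δ, hδ, h⟩ := θ.tau_cont hε
  obtain ⟨ι, _, w, g, hw0, hw1, hw⟩ := exists_cavg hΛ hx hδ
  rw [h0, zero_smul, sub_zero] at hw
  rw [zero_add, ← θ.tau_cavg hw1 g hx]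
  exact h _ (cavg_mem_LA w g hx) ((norm_cavg_le _ g hw0 hw1 x).trans h1) hw.le

/-- **the isomorphism scales the trace** -/
theorem tau_φ (hΛ : IsICC Λ) (hx : x ∈ LA Λ) : tau (θ.φ x) = θ.t * tau x := by
  set y := x - tau x • (1 : Ell2 Λ →L[ℂ] Ell2 Λ) with hy
  have h1 : tau x • (1 : Ell2 Λ →L[ℂ] Ell2 Λ) ∈ LA Λ := SMulMemClass.smul_mem _ (one_mem _)
  have hyL : y ∈ LA Λ := sub_mem hx h1
  set c : ℝ := (‖y‖ + 1)⁻¹
  have hc : 0 < c := by positivity
  have h2 := θ.tau_eq_zero hΛ (x := (c : ℂ) • y) (SMulMemClass.smul_mem _ hyL)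
    (by
      rw [norm_smul, Complex.norm_real, Real.norm_of_nonneg hc.le, inv_mul_le_iff₀ (by positivity)]
      linarith)
    (by rw [tau_smul, hy, tau_sub, tau_smul, tau_one, mul_one, sub_self, mul_zero])
  rw [θ.smul _ hyL, tau_smul, mul_eq_zero, or_iff_right (by exact_mod_cast hc.ne'), hy,
    θ.sub hx h1, θ.smul _ (one_mem _), θ.one, tau_sub, tau_smul, θ.tau_p, sub_eq_zero] at h2
  rw [h2, mul_comm]

theorem inner_hat (hΛ : IsICC Λ) (hx : x ∈ LA Λ) (hy : y ∈ LA Λ) :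
    ⟪θ.φ x (dt 1), θ.φ y (dt 1)⟫_ℂ = θ.t * ⟪x (dt 1), y (dt 1)⟫_ℂ := by
  rw [← tau_star_mul, ← tau_star_mul, ← θ.map_star hx, ← θ.mul (star_mem hx) hy,
    θ.tau_φ hΛ (mul_mem (star_mem hx) hy)]

theorem norm_hat (hΛ : IsICC Λ) (hx : x ∈ LA Λ) : ‖θ.φ x (dt 1)‖ = √θ.t * ‖x (dt 1)‖ := by
  have h := θ.inner_hat hΛ hx hx
  rw [← tau_star_mul, ← tau_star_mul, tau_star_mul_self, tau_star_mul_self] at h
  have h' : ‖θ.φ x (dt 1)‖ ^ 2 = θ.t * ‖x (dt 1)‖ ^ 2 := by exact_mod_cast h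
  refine (pow_left_inj₀ (norm_nonneg _) (by positivity) two_ne_zero).1 ?_
  rw [h', mul_pow, Real.sq_sqrt θ.t_pos.le]

/-- the image of the group elements -/
def u (s : Λ) : Ell2 K →L[ℂ] Ell2 K := θ.φ (lam Λ s)

theorem u_mem (s : Λ) : θ.u s ∈ LA K := θ.mem (lam_mem_LA s)
theorem u_one : θ.u 1 = θ.p := by rw [u, map_one, θ.one]
theorem u_mul (s r : Λ) : θ.u (s * r) = θ.u s * θ.u r := by
  rw [u, map_mul, θ.mul (lam_mem_LA _) (lam_mem_LA _)]; rfl
theorem star_u (s : Λ) : star (θ.u s) = θ.u s⁻¹ := by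
  rw [u, ← θ.map_star (lam_mem_LA _), URep.star_apply]; rfl
theorem p_mul_u (s : Λ) : θ.p * θ.u s = θ.u s := θ.p_mul (lam_mem_LA s)
theorem u_mul_p (s : Λ) : θ.u s * θ.p = θ.u s := θ.mul_p (lam_mem_LA s)


theorem inner_u_hat (hΛ : IsICC Λ) (s r : Λ) :
    ⟪θ.u s (dt 1), θ.u r (dt 1)⟫_ℂ = θ.t * dt r s := by
  rw [u, u, θ.inner_hat hΛ (lam_mem_LA s) (lam_mem_LA r)]; simp

theorem φ_span {s : Finset Λ} {c : Λ → ℂ} :
    θ.φ (∑ g ∈ s, c g • lam Λ g) = ∑ g ∈ s, c g • θ.u g := by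
  rw [θ.sum _ fun g _ => SMulMemClass.smul_mem _ (lam_mem_LA g)]
  simp only [θ.smul _ (lam_mem_LA _), u]

/-- Fourier expansion in the image -/
theorem hasSum_hat (hΛ : IsICC Λ) (hx : x ∈ LA Λ) :
    HasSum (fun s => x (dt 1) s • θ.u s (dt 1)) (θ.φ x (dt 1)) := by
  have h := (tendsto_iff_norm_sub_tendsto_zero.1 (hasSum_dt (x (dt 1)))).const_mul √θ.t
  rw [mul_zero] at h
  refine tendsto_iff_norm_sub_tendsto_zero.2 (h.congr fun s => ?_)
  have hs := span_lam_le (URep.mem_span.2 ⟨s, x (dt 1), rfl⟩)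
  rw [← sum_lam_hat, ← sub_apply, ← θ.norm_hat hΛ (sub_mem hs hx), θ.sub hs hx, φ_span]
  simp

/-- an operator commuting with the image of the group commutes with the whole corner -/
theorem comm_φ_of_comm_u (hΛ : IsICC Λ) {T : Ell2 K →L[ℂ] Ell2 K}
    (hT : ∀ s, θ.u s * T = T * θ.u s) (hx : x ∈ LA Λ) : θ.φ x * T = T * θ.φ x := by
  -- strong convergence along Kaplansky approximants
  have main : ∀ {x}, x ∈ LA Λ → ‖x‖ ≤ 1 → θ.φ x * T = T * θ.φ x := by
    intro x hx h1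
    choose w hw hw1 hw2 using fun n : ℕ =>
      exists_span_contraction hx h1 (Nat.one_div_pos_of_nat (α := ℝ) (n := n))
    have hc : ∀ n, θ.φ (w n) * T = T * θ.φ (w n) := fun n => by
      obtain ⟨s, c, e⟩ := URep.mem_span.1 (hw n)
      rw [e, φ_span, Finset.sum_mul, Finset.mul_sum]
      simp only [smul_mul_assoc, mul_smul_comm, hT]
    obtain ⟨b, -, hb⟩ := exists_wtends (hyperfilter ℕ) (T := fun k => θ.φ (w k)) (C := 1)
      (Eventually.of_forall fun k => (θ.norm_φ (span_lam_le (hw k))).trans_le (hw1 k))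
    have hbL : b ∈ LA K := (rho K).mem_comm_of_wtends hb
      (Eventually.of_forall fun a => θ.mem (span_lam_le (hw a)))
    have e : b = θ.φ x := by
      refine LA_ext hbL (θ.mem hx) (ext_inner_left ℂ fun v => tendsto_nhds_unique (hb v _) ?_)
      refine Tendsto.inner tendsto_const_nhds (tendsto_iff_norm_sub_tendsto_zero.2 ?_)
      refine squeeze_zero (fun _ => norm_nonneg _) (fun n => ?_)
        (g := fun n : ℕ => √θ.t * (1 / ((n : ℝ) + 1))) ?_
      · rw [← sub_apply, ← θ.sub (span_lam_le (hw n)) hx,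
          θ.norm_hat hΛ (sub_mem (span_lam_le (hw n)) hx)]
        exact mul_le_mul_of_nonneg_left (hw2 n).le (Real.sqrt_nonneg _)
      · simpa using (tendsto_one_div_add_atTop_nhds_zero_nat.const_mul √θ.t).mono_left
          Nat.hyperfilter_le_atTop
    rw [← e]
    exact WTends.unique (hb.mul_const T) (by simpa only [hc] using hb.const_mul T)
  set c : ℝ := (‖x‖ + 1)⁻¹
  have hc : 0 < c := by positivity
  have := main (x := (c : ℂ) • x) (SMulMemClass.smul_mem _ hx) (by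
    rw [norm_smul, Complex.norm_real, Real.norm_of_nonneg hc.le, inv_mul_le_iff₀ (by positivity)]
    linarith)
  rw [θ.smul _ hx, smul_mul_assoc, mul_smul_comm] at this
  exact smul_right_injective _ (by exact_mod_cast hc.ne') this

end Iso

end Crest.Agent.N111
end
end

-- ▼ part N111/VN/Reg
section

/-!
# Row 111, von Neumann toolbox V: regular representations given abstractly, and the end game
"two commuting regular representations permuting a finite dimensional subspace are isomorphic".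
-/

set_option autoImplicit false

noncomputable section

namespace Crest.Agent.N111

open scoped InnerProductSpace ComplexConjugate ENNReal ComplexOrder
open ContinuousLinearMap Crest.OperatorAlgebra Filter Topology

variable {H : Type*} [NormedAddCommGroup H] [InnerProductSpace ℂ H]

/-- an orthogonal family of vectors of constant length correlated with a fixed vector is finite -/
theorem finite_of_orth {ι : Type*} {e : ι → H} (he : Pairwise fun i j => ⟪e i, e j⟫_ℂ = 0) {r c : ℝ}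
    (hr : ∀ i, ‖e i‖ = r) (hc : 0 < c) {w : H} (hw : ∀ i, c ≤ ‖⟪e i, w⟫_ℂ‖) : Finite ι := by
  rcases isEmpty_or_nonempty ι with h | ⟨⟨i₀⟩⟩
  · infer_instance
  have hr0 : 0 < r := by
    refine (hr i₀ ▸ norm_nonneg (e i₀) : 0 ≤ r).lt_of_ne fun h => ?_
    have := hw i₀
    rw [norm_eq_zero.1 ((hr i₀).trans h.symm), inner_zero_left, norm_zero] at this
    linarith
  have ho : Orthonormal ℂ fun i => ((r⁻¹ : ℝ) : ℂ) • e i :=
    ⟨fun i => by
      rw [norm_smul, hr, Complex.norm_real, Real.norm_of_nonneg (by positivity)]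
      exact inv_mul_cancel₀ hr0.ne', fun i j h => by
      simp only [inner_smul_left, inner_smul_right, he h, mul_zero]⟩
  have h := (ho.inner_products_summable w).tendsto_cofinite_zero.eventually
    (gt_mem_nhds (by positivity : (0 : ℝ) < (r⁻¹ * c) ^ 2))
  rw [eventually_cofinite] at h
  refine Set.finite_univ_iff.1 (h.subset fun i _ => ?_)
  simp only [Set.mem_ofPred_eq, not_lt, inner_smul_left, norm_mul, Complex.conj_ofReal,
    Complex.norm_real, Real.norm_of_nonneg (inv_pos.2 hr0).le]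
  gcongr
  exact hw i

variable [CompleteSpace H] {K : Type*} [Group K]

theorem starProjection_comm (U : Submodule ℂ H) [U.HasOrthogonalProjection] {T : H →L[ℂ] H}
    (h1 : ∀ v ∈ U, T v ∈ U) (h2 : ∀ v ∈ U, star T v ∈ U) :
    T * U.starProjection = U.starProjection * T := by
  ext1 v
  refine (Submodule.eq_starProjection_of_mem_of_inner_eq_zero
    (h1 _ (U.starProjection_apply_mem v)) fun w hw => ?_).symm
  change ⟪T v - T _, w⟫_ℂ = 0
  rw [← map_sub, ← adjoint_inner_right]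
  exact U.starProjection_inner_eq_zero v _ (h2 w hw)

/-- the orbit of `Ω` is an orthonormal basis -/
structure IsReg (σ : URep K H) (Ω : H) : Prop where
  on : Orthonormal ℂ fun k => σ k Ω
  tot : ∀ w, (∀ k, ⟪σ k Ω, w⟫_ℂ = 0) → w = 0

theorem isReg_lam : IsReg (lam K) (dt 1) :=
  ⟨by simpa using orthonormal_dt, fun w h => eq_zero_of_inner_dt (by simpa using h)⟩

namespace IsReg

variable {σ : URep K H} {Ω : H} (h : IsReg σ Ω)
include h

/-- the unitary onto `ℓ²(K)` -/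
def W : Ell2 K ≃ₗᵢ[ℂ] H := synE h.on h.tot

@[simp] theorem W_dt (k : K) : h.W (dt k) = σ k Ω := synE_dt _ _ k

theorem W_symm_apply (w : H) (k : K) : h.W.symm w k = ⟪σ k Ω, w⟫_ℂ := synE_symm_apply _ _ w k



theorem hasSum_inner (η ζ : H) : HasSum (fun k => ⟪η, σ k Ω⟫_ℂ * ⟪σ k Ω, ζ⟫_ℂ) ⟪η, ζ⟫_ℂ := by
  have := N111.hasSum_inner (h.W.symm η) (h.W.symm ζ)
  simpa only [h.W_symm_apply, inner_conj_symm, LinearIsometryEquiv.inner_map_map] using this

theorem hasSum_normSq (η : H) : HasSum (fun k => ‖⟪σ k Ω, η⟫_ℂ‖ ^ 2) (‖η‖ ^ 2) := by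
  have := N111.hasSum_normSq (h.W.symm η)
  simpa only [h.W_symm_apply, LinearIsometryEquiv.norm_map] using this

theorem ext {E : Type*} [NormedAddCommGroup E] [NormedSpace ℂ E] {S T : H →L[ℂ] E}
    (e : ∀ k, S (σ k Ω) = T (σ k Ω)) : S = T := by
  have : S ∘L (h.W : Ell2 K →L[ℂ] H) = T ∘L (h.W : Ell2 K →L[ℂ] H) := ext_dt fun x => by simp [e]
  ext1 v
  simpa using congrArg (fun A : Ell2 K →L[ℂ] E => A (h.W.symm v)) this

theorem ext_comm {S T : H →L[ℂ] H} (hS : S ∈ σ.comm) (hT : T ∈ σ.comm) (e : S Ω = T Ω) : S = T :=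
  h.ext fun k => by rw [← σ.comm_apply hS, ← σ.comm_apply hT, e]

/-- `Ω` is a trace vector for the commutant -/
theorem trace {S T : H →L[ℂ] H} (hS : S ∈ σ.comm) (hT : T ∈ σ.comm) :
    ⟪Ω, S (T Ω)⟫_ℂ = ⟪Ω, T (S Ω)⟫_ℂ := by
  have key : ∀ {S T : H →L[ℂ] H}, S ∈ σ.comm →
      HasSum (fun k => ⟪σ k⁻¹ Ω, S Ω⟫_ℂ * ⟪σ k Ω, T Ω⟫_ℂ) ⟪Ω, S (T Ω)⟫_ℂ := by
    intro S T hS
    have := h.hasSum_inner (adjoint S Ω) (T Ω)
    simpa only [adjoint_inner_left, ← σ.comm_apply hS, σ.inner_right _ Ω] using this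
  refine (key hS).unique ?_
  have := ((Equiv.inv K).hasSum_iff).2 (key (T := S) hT)
  simpa only [Function.comp_def, Equiv.inv_apply, inv_inv, mul_comm] using this

theorem tendsto_coef (η : H) (k₀ : K) :
    Tendsto (fun k => ‖⟪η, σ (k * k₀) Ω⟫_ℂ‖) cofinite (𝓝 0) := by
  have h1 := (h.hasSum_normSq η).summable.tendsto_cofinite_zero.sqrt
  simp only [Real.sqrt_sq (norm_nonneg _), Real.sqrt_zero] at h1
  simpa only [Function.comp_def, norm_inner_symm η] using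
    h1.comp (mul_left_injective k₀).tendsto_cofinite

/-- the stabiliser of a finite dimensional subspace is finite -/
theorem finite_stab (V : Submodule ℂ H) [FiniteDimensional ℂ V] (hV : V ≠ ⊥) :
    Set.Finite {k | ∀ v ∈ V, σ k v ∈ V} := by
  obtain ⟨v, hv, hv0⟩ := V.ne_bot_iff.1 hV
  obtain ⟨k₀, hk₀⟩ : ∃ k₀, ⟪σ k₀ Ω, v⟫_ℂ ≠ 0 := by
    by_contra hc
    push Not at hc
    exact hv0 (h.tot v hc)
  let e := stdOrthonormalBasis ℂ V
  have h1 : Tendsto (fun k => ∑ i, ‖v‖ * ‖⟪(e i : H), σ (k * k₀) Ω⟫_ℂ‖) cofinite (𝓝 0) := by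
    simpa using tendsto_finsetSum Finset.univ fun i _ =>
      (h.tendsto_coef (e i) k₀).const_mul ‖v‖
  have h2 := h1.eventually (gt_mem_nhds (norm_pos_iff.2 hk₀))
  rw [eventually_cofinite] at h2
  refine h2.subset fun k hk => not_lt.2 ?_
  have e1 : σ k v = ∑ i, ⟪(e i : H), σ k v⟫_ℂ • (e i : H) := by
    simpa using congrArg Subtype.val (e.sum_repr' ⟨σ k v, hk v hv⟩).symm
  rw [← σ.inner_map_map k, ← σ.mul_apply, norm_inner_symm, e1, sum_inner]
  refine (norm_sum_le _ _).trans (Finset.sum_le_sum fun i _ => ?_)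
  rw [inner_smul_left, norm_mul, RCLike.norm_conj]
  gcongr
  have e2 : ‖(e i : H)‖ = 1 := e.orthonormal.1 i
  simpa [e2] using norm_inner_le_norm (𝕜 := ℂ) (e i : H) (σ k v)

end IsReg

section two

variable {Λ Γ' : Type*} [Group Λ] [Group Γ'] {a : URep Λ H} {b : URep Γ' H} {Ω : H}

/-- irreducibility under a finite index subgroup -/
theorem IsReg.scalar (ha : IsReg a Ω) (hb : IsReg b Ω) (hab : ∀ γ, b γ ∈ a.comm)
    (hΓ : IsICC Γ') (S : Subgroup Γ') [S.FiniteIndex] {E : H →L[ℂ] H} (hE : E ∈ a.comm)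
    (hS : ∀ k ∈ S, b k * E = E * b k) : ∃ c : ℂ, E = c • 1 := by
  have key : ∀ γ, γ ≠ 1 → hb.W.symm (E Ω) γ = 0 := fun γ hγ => by
    refine icc_ell2_eq_zero hΓ S _ (fun k hk g => ?_) hγ
    have e1 := ha.trace (hab k) (mul_mem (hab (g⁻¹ * k⁻¹)) hE)
    have e2 : E (b k Ω) = b k (E Ω) := (congrArg (fun T : H →L[ℂ] H => T Ω) (hS k hk)).symm
    simp only [mul_apply_eq_comp, e2, ← b.mul_apply, inv_mul_cancel_right] at e1
    rw [hb.W_symm_apply, hb.W_symm_apply, b.inner_left, b.inner_left, ← e1]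
    simp [mul_assoc]
  refine ⟨hb.W.symm (E Ω) 1, ha.ext_comm hE (SMulMemClass.smul_mem _ (one_mem _)) ?_⟩
  have : hb.W.symm (E Ω) = hb.W.symm (E Ω) 1 • dt 1 := l2_ext fun γ => by
    by_cases hγ : γ = 1
    · simp [hγ]
    · simp [key γ hγ, dt_ne hγ]
  simpa using congrArg hb.W this

/-- the joint stabiliser -/
def jstab (hab : ∀ γ, b γ ∈ a.comm) (V : Submodule ℂ H) (hV : V ≠ ⊥)
    (hD : ∀ s γ, (∀ v ∈ V, a s (b γ v) ∈ V) ∨ ∀ v ∈ V, ∀ w ∈ V, ⟪w, a s (b γ v)⟫_ℂ = 0) :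
    Subgroup (Λ × Γ') where
  carrier := {p | ∀ v ∈ V, a p.1 (b p.2 v) ∈ V}
  one_mem' v hv := by simpa using hv
  mul_mem' {p q} hp hq v hv := by
    have := hp _ (hq v hv)
    rwa [← a.comm_apply (hab _), ← a.mul_apply, ← b.mul_apply] at this
  inv_mem' {p} hp := by
    refine (hD p.1⁻¹ p.2⁻¹).resolve_right fun hc => ?_
    obtain ⟨v, hv, hv0⟩ := V.ne_bot_iff.1 hV
    have := hc _ (hp v hv) v hv
    rw [← a.comm_apply (hab _), a.inv_apply_apply, b.inv_apply_apply] at this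
    exact hv0 (inner_self_eq_zero.1 this)

theorem jstab_trans (ha : IsReg a Ω) (hb : IsReg b Ω) (hab : ∀ γ, b γ ∈ a.comm)
    (hΓ : IsICC Γ') (V : Submodule ℂ H) (hV : V ≠ ⊥)
    (hD : ∀ s γ, (∀ v ∈ V, a s (b γ v) ∈ V) ∨ ∀ v ∈ V, ∀ w ∈ V, ⟪w, a s (b γ v)⟫_ℂ = 0)
    (γ : Γ') : ∃ s, ∀ v ∈ V, a s (b γ v) ∈ V := by
  let S : Subgroup Γ' := (jstab hab V hV hD).map (MonoidHom.snd _ _)
  have hS : ∀ {γ}, γ ∈ S ↔ ∃ s, ∀ v ∈ V, a s (b γ v) ∈ V :=
    ⟨by rintro ⟨p, hp, rfl⟩; exact ⟨p.1, hp⟩, fun ⟨s, hs⟩ => ⟨(s, _), hs, rfl⟩⟩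
  let O : Set H := {x | ∃ s, ∃ v ∈ V, x = a s v}
  let U : Submodule ℂ H := (Submodule.span ℂ O).topologicalClosure
  have : CompleteSpace U := (Submodule.isClosed_topologicalClosure _).completeSpace_coe
  have hOU : ∀ s, ∀ v ∈ V, a s v ∈ U := fun s v hv =>
    Submodule.le_topologicalClosure _ (Submodule.subset_span ⟨s, v, hv, rfl⟩)
  have hind : ∀ W : Submodule ℂ H, IsClosed (W : Set H) → (∀ s, ∀ v ∈ V, a s v ∈ W) → U ≤ W :=
    fun W hW h => Submodule.topologicalClosure_minimal _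
      (Submodule.span_le.2 (by rintro _ ⟨s, v, hv, rfl⟩; exact h s v hv)) hW
  have hinv : ∀ T : H →L[ℂ] H, (∀ s, ∀ v ∈ V, T (a s v) ∈ U) → ∀ x ∈ U, T x ∈ U := fun T hT =>
    hind (U.comap (T : H →ₗ[ℂ] H))
      ((Submodule.isClosed_topologicalClosure _).preimage T.continuous) hT
  have haU : ∀ k, ∀ x ∈ U, a k x ∈ U := fun k =>
    hinv _ fun s v hv => by rw [← a.mul_apply]; exact hOU _ v hv
  have hbU : ∀ k ∈ S, ∀ x ∈ U, b k x ∈ U := fun k hk => hinv _ fun s v hv => by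
    obtain ⟨r, hr⟩ := hS.1 hk
    have := hOU (s * r⁻¹) _ (hr v hv)
    rwa [← a.mul_apply, inv_mul_cancel_right, a.comm_apply (hab _)] at this
  have horth : ∀ k, k ∉ S → ∀ x ∈ U, ∀ y ∈ U, ⟪y, b k x⟫_ℂ = 0 := by
    intro k hk x hx y hy
    have h1 : ∀ s, ∀ v ∈ V, b k (a s v) ∈ Uᗮ := fun s v hv => by
      refine Submodule.orthogonal_le (hind (ℂ ∙ b k (a s v))ᗮ (Submodule.isClosed_orthogonal _)
        fun r w hw => ?_) (Submodule.le_orthogonal_orthogonal _ (Submodule.mem_span_singleton_self _))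
      rw [Submodule.mem_orthogonal_singleton_iff_inner_left, a.inner_left, ← a.comm_apply (hab _),
        ← a.mul_apply]
      exact ((hD _ k).resolve_left fun h => hk (hS.2 ⟨_, h⟩)) v hv w hw
    exact hind (Uᗮ.comap (b k : H →ₗ[ℂ] H))
      ((Submodule.isClosed_orthogonal _).preimage (b k).continuous) h1 hx y hy
  set E := U.starProjection with hEdef
  have hE : E ∈ a.comm := fun k =>
    starProjection_comm U (haU k) (by rw [a.star_apply]; exact haU _)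
  have hEb : ∀ k ∈ S, b k * E = E * b k := fun k hk =>
    starProjection_comm U (hbU k hk) (by rw [b.star_apply]; exact hbU _ (S.inv_mem hk))
  obtain ⟨v, hv, hv0⟩ := V.ne_bot_iff.1 hV
  have hvU : v ∈ U := by simpa using hOU 1 v hv
  have hEv : E v = v := Submodule.starProjection_eq_self_iff.2 hvU
  have hE0 : E Ω ≠ 0 := fun h0 => by
    rw [ha.ext_comm hE (zero_mem _) h0] at hEv
    exact hv0 hEv.symm
  have hEE : ∀ x, ⟪E x, x⟫_ℂ = ((‖E x‖ ^ 2 : ℝ) : ℂ) := fun x => by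
    have := U.starProjection_inner_eq_zero x _ (U.starProjection_apply_mem x)
    rw [inner_sub_left, sub_eq_zero] at this
    rw [← inner_conj_symm, this, inner_self_eq_norm_sq_to_K]; simp [hEdef]
  have htr : ∀ k, ‖E (b k Ω)‖ ^ 2 = ‖E Ω‖ ^ 2 := fun k => by
    have e1 := ha.trace (hab k⁻¹) (mul_mem hE (hab k))
    simp only [mul_apply_eq_comp, b.apply_inv_apply] at e1
    rw [← b.inner_left, ← inner_conj_symm, hEE, ← inner_conj_symm, hEE] at e1
    simpa only [Complex.conj_ofReal, Complex.ofReal_inj] using e1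
  have hfin : Finite (Γ' ⧸ S) := by
    refine finite_of_orth (e := fun q : Γ' ⧸ S => b q.out (E (b q.out⁻¹ Ω))) (r := ‖E Ω‖)
      (fun q q' hq => ?_) (fun q => ?_) (pow_pos (norm_pos_iff.2 hE0) 2) (w := Ω) fun q => ?_
    · simp only
      rw [b.inner_left, ← b.mul_apply]
      refine horth _ (fun hm => hq ?_) _ (U.starProjection_apply_mem _) _
        (U.starProjection_apply_mem _)
      rw [← q.out_eq', ← q'.out_eq']
      exact QuotientGroup.eq.2 hm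
    · rw [b.norm_map]
      exact (pow_left_inj₀ (norm_nonneg _) (norm_nonneg _) two_ne_zero).1 (htr _)
    · rw [b.inner_left, hEE, htr, Complex.norm_real, Real.norm_of_nonneg (sq_nonneg _)]
  have : S.FiniteIndex := Subgroup.finiteIndex_of_finite_quotient
  obtain ⟨c, hc⟩ := ha.scalar hb hab hΓ S hE hEb
  have hc1 : c = 1 := by
    rw [hc, smul_apply, one_apply_eq_self] at hEv
    exact smul_left_injective ℂ hv0 (hEv.trans (one_smul ℂ v).symm)
  by_contra hγ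
  have hall : b γ v ∈ U := Submodule.starProjection_eq_self_iff.1 (by
    rw [← hEdef, hc, hc1]; simp)
  have := horth γ (fun h => hγ (hS.1 h)) v hvU _ hall
  exact hv0 (inner_self_eq_zero.1 (by rwa [b.inner_map_map] at this))

theorem jstab_free (ha : IsReg a Ω) (hab : ∀ γ, b γ ∈ a.comm) (hΛ : IsICC Λ) (V : Submodule ℂ H)
    [FiniteDimensional ℂ V] (hV : V ≠ ⊥)
    (hD : ∀ s γ, (∀ v ∈ V, a s (b γ v) ∈ V) ∨ ∀ v ∈ V, ∀ w ∈ V, ⟪w, a s (b γ v)⟫_ℂ = 0)
    (ht : ∀ s, ∃ γ, ∀ v ∈ V, a s (b γ v) ∈ V) {s : Λ} (hs : ∀ v ∈ V, a s v ∈ V) : s = 1 := by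
  let Z := jstab hab V hV hD
  refine icc_eq_one_of_finite hΛ ⊤ (ha.finite_stab V hV) (fun k _ r hr => ?_) hs
  obtain ⟨γ, hγ⟩ := ht k
  have h1 : (k, γ) ∈ Z := hγ
  have h2 : (r, 1) ∈ Z := fun v hv => by simpa using hr v hv
  have h3 := Z.mul_mem (Z.mul_mem h1 h2) (Z.inv_mem h1)
  intro v hv
  simpa using h3 v hv

theorem iso_of_subspace (ha : IsReg a Ω) (hb : IsReg b Ω) (hab : ∀ γ, b γ ∈ a.comm)
    (hΛ : IsICC Λ) (hΓ : IsICC Γ') (V : Submodule ℂ H) [FiniteDimensional ℂ V] (hV : V ≠ ⊥)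
    (hD : ∀ s γ, (∀ v ∈ V, a s (b γ v) ∈ V) ∨ ∀ v ∈ V, ∀ w ∈ V, ⟪w, a s (b γ v)⟫_ℂ = 0) :
    Nonempty (Λ ≃* Γ') := by
  have hba : ∀ s, a s ∈ b.comm := fun s γ => (hab γ s).symm
  have sw : ∀ s γ v, b γ (a s v) = a s (b γ v) := fun s γ v => b.comm_apply (hba s) γ v
  have hD' : ∀ γ s, (∀ v ∈ V, b γ (a s v) ∈ V) ∨ ∀ v ∈ V, ∀ w ∈ V, ⟪w, b γ (a s v)⟫_ℂ = 0 := by
    simpa only [sw] using fun γ s => hD s γ
  have t1 := jstab_trans ha hb hab hΓ V hV hD
  have t2 := jstab_trans hb ha hba hΛ V hV hD'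
  let Z := jstab hab V hV hD
  have b1 : Function.Bijective ((MonoidHom.fst Λ Γ').comp Z.subtype) := by
    refine ⟨(injective_iff_map_eq_one _).2 ?_, fun s => ?_⟩
    · rintro ⟨⟨s, γ⟩, hp⟩ (rfl : s = 1)
      obtain rfl : γ = 1 := jstab_free hb hba hΓ V hV hD' (by simpa only [sw] using t1)
        fun v hv => by simpa using hp v hv
      rfl
    · obtain ⟨γ, hγ⟩ := t2 s
      exact ⟨⟨(s, γ), fun v hv => sw s γ v ▸ hγ v hv⟩, rfl⟩
  have b2 : Function.Bijective ((MonoidHom.snd Λ Γ').comp Z.subtype) := by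
    refine ⟨(injective_iff_map_eq_one _).2 ?_, fun γ => ?_⟩
    · rintro ⟨⟨s, γ⟩, hp⟩ (rfl : γ = 1)
      obtain rfl : s = 1 := jstab_free ha hab hΛ V hV hD (by simpa only [sw] using t2)
        fun v hv => by simpa using hp v hv
      rfl
    · obtain ⟨s, hs⟩ := t1 γ
      exact ⟨⟨(s, γ), hs⟩, rfl⟩
  exact ⟨(MulEquiv.ofBijective _ b1).symm.trans (MulEquiv.ofBijective _ b2)⟩

end two

end Crest.Agent.N111
end
end

-- ▼ part N111/VN/End
section

/-!
# Row 111, von Neumann toolbox VI: trace class operators and the abstract end game of (ii).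
-/

set_option autoImplicit false

noncomputable section

namespace Crest.Agent.N111

open scoped InnerProductSpace ComplexConjugate ENNReal ComplexOrder
open ContinuousLinearMap Crest.OperatorAlgebra Filter Topology

variable {H : Type*} [NormedAddCommGroup H] [InnerProductSpace ℂ H]

/-- Hilbert-Schmidt bound -/
theorem norm_le_of_hs {Y : Type*} {S : Ell2 Y →L[ℂ] H} {C : ℝ} (hC : 0 ≤ C)
    (h : ∀ F : Finset Y, ∑ y ∈ F, ‖S (dt y)‖ ^ 2 ≤ C ^ 2) : ‖S‖ ≤ C := by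
  refine opNorm_le_bound _ hC fun ξ => ?_
  refine le_of_tendsto' (Tendsto.norm (hasSum_map_dt S ξ)) fun F => ?_
  refine (norm_sum_le _ _).trans ?_
  refine (pow_le_pow_iff_left₀ (by positivity) (by positivity) two_ne_zero).1 ?_
  simp only [norm_smul]
  refine (Finset.sum_mul_sq_le_sq_mul_sq F _ _).trans ?_
  rw [mul_pow, mul_comm]
  exact mul_le_mul (h F) (sum_normSq_le ξ F) (by positivity) (by positivity)

variable [CompleteSpace H]

theorem isCompact_of_hs {Y : Type*} {S : Ell2 Y →L[ℂ] H} {B : ℝ}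
    (h : ∀ F : Finset Y, ∑ y ∈ F, ‖S (dt y)‖ ^ 2 ≤ B) : IsCompactOperator S := by
  classical
  have hs : Summable fun y => ‖S (dt y)‖ ^ 2 := summable_of_sum_le (fun _ => sq_nonneg _) h
  let R : Finset Y → Ell2 Y →L[ℂ] H := fun F => ∑ y ∈ F, (innerSL ℂ (dt y)).smulRight (S (dt y))
  refine isCompactOperator_of_tendsto (l := atTop) (F := R) ?_ (Eventually.of_forall fun F => ?_)
  · refine Metric.tendsto_nhds.2 fun ε hε => ?_
    obtain ⟨F₀, hF₀⟩ := hs.vanishing (gt_mem_nhds (by positivity : (0 : ℝ) < (ε / 2) ^ 2))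
    filter_upwards [eventually_ge_atTop F₀] with F hF
    rw [dist_eq_norm']
    refine (norm_le_of_hs (half_pos hε).le fun G => ?_).trans_lt (half_lt_self hε)
    have e : ∀ y, (S - R F) (dt y) = if y ∈ F then 0 else S (dt y) := fun y => by
      simp only [R, sub_apply, sum_apply, smulRight_apply, innerSL_apply_apply, inner_dt, dt_apply]
      split_ifs with hy
      · rw [Finset.sum_eq_single y (fun z _ hz => by simp [hz]) (fun h => absurd hy h)]; simp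
      · rw [Finset.sum_eq_zero fun z hz => by simp [show z ≠ y from fun e => hy (e ▸ hz)]]; simp
    refine le_trans (le_of_eq ?_) (hF₀ (G \ F)
      (Finset.disjoint_left.2 fun y hy h0 => (Finset.mem_sdiff.1 hy).2 (hF h0))).le
    rw [Finset.sdiff_eq_filter, Finset.sum_filter]
    exact Finset.sum_congr rfl fun y _ => by rw [e]; split_ifs <;> simp
  · refine (compactOperator (RingHom.id ℂ) (Ell2 Y) H).sum_mem fun y _ => ?_
    exact (isCompactOperator_of_locallyCompactSpace_dom (innerSL ℂ (dt y))).clm_comp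
      (toSpanSingleton ℂ (S (dt y)))

theorem exists_sqrt {t : H →L[ℂ] H} (ht : 0 ≤ t) :
    ∃ r : H →L[ℂ] H, star r = r ∧ r * r = t ∧ ∀ x, ‖r x‖ ^ 2 = (⟪x, t x⟫_ℂ).re := by
  have h1 : star (CFC.sqrt t) = CFC.sqrt t := (IsSelfAdjoint.of_nonneg (CFC.sqrt_nonneg t)).star_eq
  have h2 : CFC.sqrt t * CFC.sqrt t = t := CFC.sqrt_mul_sqrt_self t ht
  refine ⟨_, h1, h2, fun x => ?_⟩
  conv_rhs => rw [← h2, mul_apply_eq_comp, ← adjoint_inner_left, ← star_eq_adjoint, h1]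
  exact (inner_self_eq_norm_sq (𝕜 := ℂ) _).symm

/-- a positive operator with vanishing diagonal on a total family is zero -/
theorem eq_zero_of_diag {Y : Type*} {t : Ell2 Y →L[ℂ] Ell2 Y} (ht : 0 ≤ t)
    (h : ∀ y, ⟪dt y, t (dt y)⟫_ℂ = 0) : t = 0 := by
  obtain ⟨r, -, h2, h3⟩ := exists_sqrt ht
  have : r = 0 := ext_dt fun y => by
    have := h3 (dt y)
    rw [h, Complex.zero_re] at this
    simpa using this
  rw [← h2, this, mul_zero]

/-- the trace does not depend on the basis -/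
theorem trace_le_of_basis {ι κ : Type*} {e : ι → H} {f : κ → H}
    (he : ∀ η, HasSum (fun i => ‖⟪e i, η⟫_ℂ‖ ^ 2) (‖η‖ ^ 2)) (hf : Orthonormal ℂ f)
    {t : H →L[ℂ] H} (ht : 0 ≤ t) {B : ℝ}
    (h : ∀ F : Finset ι, ∑ i ∈ F, (⟪e i, t (e i)⟫_ℂ).re ≤ B) (F : Finset κ) :
    ∑ k ∈ F, (⟪f k, t (f k)⟫_ℂ).re ≤ B := by
  obtain ⟨r, h1, -, h3⟩ := exists_sqrt ht
  simp only [← h3] at h ⊢
  refine hasSum_le_of_sum_le (hasSum_sum fun k _ => he (r (f k))) fun G => ?_
  rw [Finset.sum_comm]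
  refine le_trans (le_of_eq (Finset.sum_comm)) (le_trans (Finset.sum_le_sum fun i _ => ?_) (h G))
  refine le_trans (le_of_eq (Finset.sum_congr rfl fun k _ => ?_)) (hf.sum_inner_products_le _)
  rw [← adjoint_inner_left, ← star_eq_adjoint, h1, norm_inner_symm]

theorem IsReg.isCompact {K : Type*} [Group K] {σ : URep K H} {Ω : H} (h : IsReg σ Ω)
    {t : H →L[ℂ] H} (ht : 0 ≤ t) {B : ℝ}
    (hB : ∀ F : Finset K, ∑ k ∈ F, (⟪σ k Ω, t (σ k Ω)⟫_ℂ).re ≤ B) : IsCompactOperator t := by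
  obtain ⟨r, -, h2, h3⟩ := exists_sqrt ht
  have h1 : IsCompactOperator (r ∘L (h.W : Ell2 K →L[ℂ] H)) :=
    isCompact_of_hs (B := B) fun F => by simpa [h3] using hB F
  have h4 := (h1.comp_clm (h.W.symm : H →L[ℂ] Ell2 K)).clm_comp r
  have e : (t : H → H) = r ∘ (r ∘L (h.W : Ell2 K →L[ℂ] H)) ∘ (h.W.symm : H →L[ℂ] Ell2 K) := by
    ext x; simp [← h2]
  rw [e]; exact h4

/-- a commuting family of self-adjoint operators containing a nonzero compact operator has a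
finite dimensional joint eigenspace -/
theorem exists_joint_eigenspace {𝒜 : Set (H →L[ℂ] H)} (hsa : ∀ t ∈ 𝒜, star t = t)
    (hc : ∀ t ∈ 𝒜, ∀ t' ∈ 𝒜, Commute t t') {t : H →L[ℂ] H} (ht : t ∈ 𝒜) (h0 : t ≠ 0)
    (hk : IsCompactOperator t) : ∃ (χ : (H →L[ℂ] H) → ℂ) (V : Submodule ℂ H),
      FiniteDimensional ℂ V ∧ V ≠ ⊥ ∧ ∀ v, v ∈ V ↔ ∀ x ∈ 𝒜, x v = χ x • v := by
  classical
  have hsym : ∀ x ∈ 𝒜, (x : H →ₗ[ℂ] H).IsSymmetric := fun x hx =>
    IsSelfAdjoint.isSymmetric (hsa x hx)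
  obtain ⟨μ, hμ, hμ0⟩ : ∃ μ, Module.End.HasEigenvalue (t : Module.End ℂ H) μ ∧ μ ≠ 0 := by
    by_contra h
    push Not at h
    exact h0 ((eq_zero_of_forall_hasEigenvalue_eq_zero hk (hsym t ht)).1 h)
  set W := Module.End.eigenspace (t : Module.End ℂ H) μ with hW
  have hWf : FiniteDimensional ℂ W := finite_dimensional_eigenspace hk μ hμ0
  have hWm : ∀ v, v ∈ W ↔ t v = μ • v := fun v => Module.End.mem_eigenspace_iff
  have hinv : ∀ x : 𝒜, ∀ v ∈ W, ((x : H →L[ℂ] H) : H →ₗ[ℂ] H) v ∈ W := fun x v hv => by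
    rw [hWm] at hv ⊢
    have := congrArg (fun T : H →L[ℂ] H => T v) (hc t ht x x.2).eq
    simp only [mul_apply_eq_comp, hv, map_smul] at this
    exact this
  have htop := LinearMap.IsSymmetric.iSup_iInf_eq_top_of_commute (𝕜 := ℂ) (E := W)
    (T := fun x : 𝒜 => ((x : H →L[ℂ] H) : H →ₗ[ℂ] H).restrict (hinv x))
    (fun x => (hsym x x.2).restrict_invariant _)
    (fun x y _ => LinearMap.ext fun v => Subtype.ext
      (congrArg (fun T : H →L[ℂ] H => T v) (hc x x.2 y y.2).eq))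
  obtain ⟨χ, hχ⟩ : ∃ χ : 𝒜 → ℂ, ⨅ x : 𝒜, Module.End.eigenspace
      (((x : H →L[ℂ] H) : H →ₗ[ℂ] H).restrict (hinv x)) (χ x) ≠ ⊥ := by
    by_contra h
    push Not at h
    simp only [h, iSup_bot] at htop
    have : Nontrivial W := Submodule.nontrivial_iff_ne_bot.2 hμ
    exact bot_ne_top htop
  obtain ⟨v, hv, hv0⟩ := (Submodule.ne_bot_iff _).1 hχ
  have hv1 : ∀ x : 𝒜, (x : H →L[ℂ] H) v = χ x • (v : H) := fun x =>
    congrArg Subtype.val (Module.End.mem_eigenspace_iff.1 ((Submodule.mem_iInf _).1 hv x))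
  have hv2 : (v : H) ≠ 0 := fun h => hv0 (Subtype.ext h)
  let V : Submodule ℂ H :=
    ⨅ x : 𝒜, Module.End.eigenspace ((x : H →L[ℂ] H) : Module.End ℂ H) (χ x)
  have hV : ∀ w, w ∈ V ↔ ∀ x : 𝒜, (x : H →L[ℂ] H) w = χ x • w := fun w => by
    simp only [V, Submodule.mem_iInf, Module.End.mem_eigenspace_iff]; rfl
  have hμχ : χ ⟨t, ht⟩ = μ :=
    smul_left_injective ℂ hv2 ((hv1 ⟨t, ht⟩).symm.trans ((hWm _).1 v.2))
  refine ⟨fun x => if h : x ∈ 𝒜 then χ ⟨x, h⟩ else 0, V,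
    Submodule.finiteDimensional_of_le (S₂ := W) fun w hw => ?_,
    (Submodule.ne_bot_iff _).2 ⟨v, (hV _).2 hv1, hv2⟩, fun w => ?_⟩
  · rw [hWm, ← hμχ]; exact (hV w).1 hw ⟨t, ht⟩
  · rw [hV]
    exact ⟨fun h x hx => by simpa only [dif_pos hx] using h ⟨x, hx⟩,
      fun h x => by simpa only [dif_pos x.2] using h x x.2⟩

/-- **the abstract end game of (ii)** -/
theorem iso_of_family {Λ Γ' : Type*} [Group Λ] [Group Γ'] {a : URep Λ H} {b : URep Γ' H} {Ω : H}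
    (ha : IsReg a Ω) (hb : IsReg b Ω) (hab : ∀ γ, b γ ∈ a.comm) (hΛ : IsICC Λ) (hΓ : IsICC Γ')
    {𝒜 : Set (H →L[ℂ] H)} (hpos : ∀ t ∈ 𝒜, 0 ≤ t) (hc : ∀ t ∈ 𝒜, ∀ t' ∈ 𝒜, Commute t t')
    (hna : ∀ t ∈ 𝒜, ∀ s, a s⁻¹ * t * a s ∈ 𝒜) (hnb : ∀ t ∈ 𝒜, ∀ γ, b γ⁻¹ * t * b γ ∈ 𝒜)
    {t : H →L[ℂ] H} (ht : t ∈ 𝒜) (h0 : t ≠ 0) {B : ℝ}
    (hB : ∀ F : Finset Λ, ∑ k ∈ F, (⟪a k Ω, t (a k Ω)⟫_ℂ).re ≤ B) : Nonempty (Λ ≃* Γ') := by
  have hsa : ∀ t ∈ 𝒜, star t = t := fun t ht => (IsSelfAdjoint.of_nonneg (hpos t ht)).star_eq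
  obtain ⟨χ, V, hfd, hV, hm⟩ := exists_joint_eigenspace hsa hc ht h0 (ha.isCompact (hpos t ht) hB)
  refine iso_of_subspace ha hb hab hΛ hΓ V hV fun s γ => ?_
  -- the translate is the joint eigenspace of another character
  have key : ∀ x ∈ 𝒜, ∀ v ∈ V, x (a s (b γ v))
      = χ (b γ⁻¹ * (a s⁻¹ * x * a s) * b γ) • a s (b γ v) := fun x hx v hv => by
    rw [← map_smul, ← map_smul, ← (hm v).1 hv _ (hnb _ (hna x hx s) γ)]
    simp
  by_cases hcase : ∀ x ∈ 𝒜, χ (b γ⁻¹ * (a s⁻¹ * x * a s) * b γ) = χ x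
  · exact Or.inl fun v hv => (hm _).2 fun x hx => by rw [key x hx v hv, hcase x hx]
  · push Not at hcase
    obtain ⟨x, hx, hne⟩ := hcase
    refine Or.inr fun v hv w hw => ?_
    have hsym : ∀ y z, ⟪x y, z⟫_ℂ = ⟪y, x z⟫_ℂ := fun y z => by
      rw [← adjoint_inner_right, ← star_eq_adjoint, hsa x hx]
    by_cases hw0 : w = 0
    · simp [hw0]
    have hreal : conj (χ x) = χ x := by
      have := hsym w w
      rw [(hm w).1 hw x hx, inner_smul_left, inner_smul_right] at this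
      exact mul_right_cancel₀ (inner_self_ne_zero.2 hw0) this
    have := hsym w (a s (b γ v))
    rw [(hm w).1 hw x hx, key x hx v hv, inner_smul_left, inner_smul_right, hreal] at this
    by_contra h
    exact hne (mul_right_cancel₀ h this).symm

end Crest.Agent.N111
end
end

-- ▼ part N111/VN/Emb

/-!
# Row 111, von Neumann toolbox VII: the embedding `L(Λ) → L(K)` along an injective homomorphism.
-/

set_option autoImplicit false

noncomputable section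

namespace Crest.Agent.N111

open scoped InnerProductSpace ComplexConjugate ENNReal ComplexOrder
open ContinuousLinearMap Crest.OperatorAlgebra Filter Topology

theorem amp_bound {Q A Y : Type*} (e : Q × A ≃ Y) (x : Ell2 A →L[ℂ] Ell2 A) (ξ : Ell2 Y)
    {g : Y → ℂ} (hg : ∀ q a, g (e (q, a)) =
      x (pull (fun a => e (q, a)) (e.injective.comp (Prod.mk_right_injective q)) ξ) a)
    (F : Finset Y) : ∑ y ∈ F, ‖g y‖ ^ 2 ≤ (‖x‖ * ‖ξ‖) ^ 2 := by
  set sl : Q → Ell2 A := fun q =>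
    pull (fun a => e (q, a)) (e.injective.comp (Prod.mk_right_injective q)) ξ
  have h1 : HasSum (fun q => ‖sl q‖ ^ 2) (‖ξ‖ ^ 2) :=
    (e.hasSum_iff.2 (hasSum_normSq ξ)).prod_fiberwise fun q => hasSum_normSq (sl q)
  have h2 : ∀ q, HasSum (fun a => ‖g (e (q, a))‖ ^ 2) (‖x (sl q)‖ ^ 2) := fun q => by
    simpa only [hg] using hasSum_normSq (x (sl q))
  have h3 : ∀ q, ‖x (sl q)‖ ^ 2 ≤ ‖x‖ ^ 2 * ‖sl q‖ ^ 2 := fun q => by
    rw [← mul_pow]; exact pow_le_pow_left₀ (norm_nonneg _) (x.le_opNorm _) 2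
  have h4 : Summable fun q => ‖x (sl q)‖ ^ 2 :=
    Summable.of_nonneg_of_le (fun _ => sq_nonneg _) h3 (h1.summable.mul_left _)
  have h5 : Summable fun p : Q × A => ‖g (e p)‖ ^ 2 :=
    (summable_prod_of_nonneg fun _ => sq_nonneg _).2
      ⟨fun q => (h2 q).summable, by simpa only [(h2 _).tsum_eq] using h4⟩
  have h6 := h5.hasSum.prod_fiberwise h2
  refine (sum_le_hasSum F (fun _ _ => sq_nonneg _)
    ((e.hasSum_iff (f := fun y => ‖g y‖ ^ 2)).1 h5.hasSum)).trans ?_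
  rw [mul_pow]
  exact hasSum_le h3 h6 (h1.mul_left _)

variable {Λ K : Type*} [Group Λ] [Group K]

theorem wtends_of_hat_LA {α : Type*} (U : Ultrafilter α) {y : α → Ell2 K →L[ℂ] Ell2 K}
    (hy : ∀ a, y a ∈ LA K) {C : ℝ} (hC : ∀ a, ‖y a‖ ≤ C) {y₀ : Ell2 K →L[ℂ] Ell2 K}
    (h₀ : y₀ ∈ LA K) (h : Tendsto (fun a => y a (dt 1)) U (𝓝 (y₀ (dt 1)))) : WTends U y y₀ := by
  obtain ⟨b, -, hb⟩ := exists_wtends U (Eventually.of_forall hC)
  rwa [LA_ext ((rho K).mem_comm_of_wtends hb (Eventually.of_forall hy)) h₀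
    (ext_inner_left ℂ fun v => tendsto_nhds_unique (hb v _) (tendsto_const_nhds.inner h))] at hb

theorem wtends_of_hat_RA {α : Type*} (U : Ultrafilter α) {y : α → Ell2 K →L[ℂ] Ell2 K}
    (hy : ∀ a, y a ∈ RA K) {C : ℝ} (hC : ∀ a, ‖y a‖ ≤ C) {y₀ : Ell2 K →L[ℂ] Ell2 K}
    (h₀ : y₀ ∈ RA K) (h : Tendsto (fun a => y a (dt 1)) U (𝓝 (y₀ (dt 1)))) : WTends U y y₀ := by
  obtain ⟨b, -, hb⟩ := exists_wtends U (Eventually.of_forall hC)
  rwa [RA_ext ((lam K).mem_comm_of_wtends hb (Eventually.of_forall hy)) h₀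
    (ext_inner_left ℂ fun v => tendsto_nhds_unique (hb v _) (tendsto_const_nhds.inner h))] at hb

section emb

variable (f : Λ →* K) (hf : Function.Injective f)

/-- slices along the cosets of the image -/
def sl (y : K) : Ell2 K →L[ℂ] Ell2 Λ :=
  pull (fun s => f s * y) ((mul_left_injective y).comp hf)

@[simp] theorem sl_apply (y : K) (ξ : Ell2 K) (s : Λ) : sl f hf y ξ s = ξ (f s * y) := rfl

include hf in
theorem exists_coset_equiv : ∃ (e : Quotient (QuotientGroup.rightRel f.range) × Λ ≃ K),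
    ∀ q s, e (q, s) = f s * q.out := by
  refine ⟨Equiv.ofBijective (fun p => f p.2 * p.1.out) ⟨?_, fun y => ?_⟩, fun _ _ => rfl⟩
  · rintro ⟨q, s⟩ ⟨q', s'⟩ h
    simp only at h
    obtain rfl : q = q' := by
      rw [← q.out_eq, ← q'.out_eq]
      refine Quotient.sound (QuotientGroup.rightRel_apply.2 ⟨s'⁻¹ * s, ?_⟩)
      rw [map_mul, map_inv, eq_mul_inv_iff_mul_eq, mul_assoc, h, inv_mul_cancel_left]
    rw [hf (mul_right_cancel h)]
  · obtain ⟨s, hs⟩ := QuotientGroup.rightRel_apply.1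
      (Quotient.mk_out (s := QuotientGroup.rightRel f.range) y)
    exact ⟨(⟦y⟧, s), by simp only [hs, inv_mul_cancel_right]⟩

theorem emb_bound {x : Ell2 Λ →L[ℂ] Ell2 Λ} (hx : x ∈ LA Λ) (ξ : Ell2 K) (F : Finset K) :
    ∑ y ∈ F, ‖x (sl f hf y ξ) 1‖ ^ 2 ≤ (‖x‖ * ‖ξ‖) ^ 2 := by
  obtain ⟨e, he⟩ := exists_coset_equiv f hf
  refine amp_bound e x ξ (g := fun y => x (sl f hf y ξ) 1) (fun q s => ?_) F
  have : sl f hf (e (q, s)) ξ = rho Λ s
      (pull (fun a => e (q, a)) (e.injective.comp (Prod.mk_right_injective q)) ξ) :=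
    l2_ext fun a => by simp [he, mul_assoc]
  simp only [this, ← URep.comm_apply hx, rho_apply, one_mul]

open Classical in
/-- the embedding `L(Λ) → L(K)`, `λ_s ↦ λ_{f s}` (zero outside `L(Λ)`) -/
def emb (x : Ell2 Λ →L[ℂ] Ell2 Λ) : Ell2 K →L[ℂ] Ell2 K :=
  if hx : x ∈ LA Λ then
    LinearMap.mkContinuous
      { toFun := fun ξ => mkL2 (fun y => x (sl f hf y ξ) 1) (emb_bound f hf hx ξ)
        map_add' := fun _ _ => l2_ext fun y => by simp
        map_smul' := fun _ _ => l2_ext fun y => by simp } ‖x‖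
      (fun ξ => norm_le_of_sum _ (by positivity) (emb_bound f hf hx ξ))
  else 0

variable {x y : Ell2 Λ →L[ℂ] Ell2 Λ}

theorem emb_apply (hx : x ∈ LA Λ) (ξ : Ell2 K) (k : K) : emb f hf x ξ k = x (sl f hf k ξ) 1 := by
  rw [emb, dif_pos hx]; rfl

theorem norm_emb_le (x : Ell2 Λ →L[ℂ] Ell2 Λ) : ‖emb f hf x‖ ≤ ‖x‖ := by
  rw [emb]
  split_ifs
  · exact LinearMap.mkContinuous_norm_le _ (norm_nonneg _) _
  · simp

theorem emb_mem (x : Ell2 Λ →L[ℂ] Ell2 Λ) : emb f hf x ∈ LA K := by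
  by_cases hx : x ∈ LA Λ
  · intro k
    ext1 ξ
    refine l2_ext fun z => ?_
    have : sl f hf (z * k) ξ = sl f hf z (rho K k ξ) := l2_ext fun s => by simp [mul_assoc]
    simp [emb_apply f hf hx, this]
  · rw [emb, dif_neg hx]; exact zero_mem _

theorem emb_hat (hx : x ∈ LA Λ) : emb f hf x (dt 1) = push f hf (x (dt 1)) := by
  refine l2_ext fun k => ?_
  rw [emb_apply f hf hx]
  by_cases hk : ∃ s, f s = k
  · obtain ⟨s, rfl⟩ := hk
    have : sl f hf (f s) (dt 1) = dt s⁻¹ := l2_ext fun r => by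
      classical
      rw [sl_apply, ← map_mul, dt_apply, dt_apply]
      exact if_congr (by rw [map_eq_one_iff f hf, mul_eq_one_iff_eq_inv]) rfl rfl
    rw [this, push_apply, LA_dt hx]; simp
  · push Not at hk
    have : sl f hf k (dt 1) = 0 := l2_ext fun r =>
      dt_ne fun h => hk r⁻¹ (by rw [map_inv, inv_eq_of_mul_eq_one_right h])
    rw [this, push_apply_of_not _ _ _ hk]; simp

theorem rho_push (s : Λ) (ξ : Ell2 Λ) : rho K (f s) (push f hf ξ) = push f hf (rho Λ s ξ) := by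
  have : rho K (f s) ∘L push f hf = push f hf ∘L rho Λ s := ext_dt fun r => by simp
  exact congrArg (fun T : Ell2 Λ →L[ℂ] Ell2 K => T ξ) this

theorem Jc_push (ξ : Ell2 Λ) : Jc (push f hf ξ) = push f hf (Jc ξ) := by
  refine l2_ext fun k => ?_
  by_cases hk : ∃ s, f s = k
  · obtain ⟨s, rfl⟩ := hk
    rw [Jc_apply, ← map_inv, push_apply, push_apply, Jc_apply]
  · push Not at hk
    rw [Jc_apply, push_apply_of_not _ _ _ hk, push_apply_of_not, map_zero]
    exact fun s h => hk s⁻¹ (by rw [map_inv, h, inv_inv])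

theorem emb_push (hx : x ∈ LA Λ) (ξ : Ell2 Λ) : emb f hf x (push f hf ξ) = push f hf (x ξ) := by
  have : emb f hf x ∘L push f hf = push f hf ∘L x := ext_dt fun r => by
    simp only [comp_apply, push_dt]
    rw [LA_dt (emb_mem f hf x), emb_hat f hf hx, ← map_inv, rho_push, ← LA_dt hx]
  exact congrArg (fun T : Ell2 Λ →L[ℂ] Ell2 K => T ξ) this

theorem emb_mul (hx : x ∈ LA Λ) (hy : y ∈ LA Λ) :
    emb f hf (x * y) = emb f hf x * emb f hf y :=
  LA_ext (emb_mem _ _ _) (mul_mem (emb_mem _ _ _) (emb_mem _ _ _)) (by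
    rw [mul_apply_eq_comp, emb_hat f hf hy, emb_push f hf hx, emb_hat f hf (mul_mem hx hy)]; rfl)

theorem emb_add (hx : x ∈ LA Λ) (hy : y ∈ LA Λ) :
    emb f hf (x + y) = emb f hf x + emb f hf y :=
  LA_ext (emb_mem _ _ _) (add_mem (emb_mem _ _ _) (emb_mem _ _ _)) (by
    simp [emb_hat f hf hx, emb_hat f hf hy, emb_hat f hf (add_mem hx hy)])

theorem emb_smul (c : ℂ) (hx : x ∈ LA Λ) : emb f hf (c • x) = c • emb f hf x :=
  LA_ext (emb_mem _ _ _) (SMulMemClass.smul_mem _ (emb_mem _ _ _)) (by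
    simp [emb_hat f hf hx, emb_hat f hf (SMulMemClass.smul_mem c hx)])

theorem emb_zero : emb f hf 0 = 0 := by simpa using emb_smul f hf 0 (zero_mem (LA Λ))

theorem emb_star (hx : x ∈ LA Λ) : emb f hf (star x) = star (emb f hf x) :=
  LA_ext (emb_mem _ _ _) (star_mem (emb_mem _ _ _)) (by
    rw [star_hat_LA (emb_mem _ _ _), emb_hat f hf hx, emb_hat f hf (star_mem hx), Jc_push,
      star_hat_LA hx])

@[simp] theorem emb_lam (s : Λ) : emb f hf (lam Λ s) = lam K (f s) :=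
  LA_ext (emb_mem _ _ _) (lam_mem_LA _) (by simp [emb_hat f hf (lam_mem_LA s)])

@[simp] theorem emb_one : emb f hf 1 = 1 := by simpa using emb_lam f hf 1


end emb

/-- a unitary representation built from a homomorphism into the unitaries -/
def URep.ofStar {L H : Type*} [Group L] [NormedAddCommGroup H] [InnerProductSpace ℂ H]
    [CompleteSpace H] (u : L → H →L[ℂ] H) (h1 : u 1 = 1) (hmul : ∀ g h, u (g * h) = u g * u h)
    (hs : ∀ g, star (u g) = u g⁻¹) : URep L H :=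
  URep.mk' u h1 hmul fun g v => by
    have : ⟪u g v, u g v⟫_ℂ = ⟪v, v⟫_ℂ := by
      rw [← adjoint_inner_right, ← star_eq_adjoint, hs, ← mul_apply_eq_comp, ← hmul,
        inv_mul_cancel, h1, one_apply_eq_self]
    rw [norm_eq_sqrt_re_inner (𝕜 := ℂ), this, ← norm_eq_sqrt_re_inner]

@[simp] theorem URep.ofStar_apply {L H : Type*} [Group L] [NormedAddCommGroup H]
    [InnerProductSpace ℂ H] [CompleteSpace H] (u : L → H →L[ℂ] H) (h1 hmul hs) (g : L) :
    URep.ofStar u h1 hmul hs g = u g := rfl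

/-- `J σ J` -/
def URep.jj {L : Type*} [Group L] (σ : URep L (Ell2 K)) : URep L (Ell2 K) :=
  URep.ofStar (fun g => N111.jj (σ g)) (by simp) (fun g h => by rw [map_mul, jj_mul])
    fun g => by rw [← jj_star, σ.star_apply]

@[simp] theorem URep.jj_apply {L : Type*} [Group L] (σ : URep L (Ell2 K)) (g : L) :
    σ.jj g = N111.jj (σ g) := rfl

theorem commute_jj {S T : Ell2 K →L[ℂ] Ell2 K} (h : Commute S T) : Commute (jj S) (jj T) := by
  rw [Commute, SemiconjBy, ← jj_mul, h.eq, jj_mul]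

/-- a group of unitaries generating `L(Λ)` -/
structure IsGen {L : Type*} [Group L] (v : URep L (Ell2 Λ)) : Prop where
  mem : ∀ γ, v γ ∈ LA Λ
  gen : ∀ T ∈ v.comm, T ∈ RA Λ

theorem isGen_lam : IsGen (lam Λ) := ⟨lam_mem_LA, fun _ h => h⟩

namespace IsGen

variable {L : Type*} [Group L] {v : URep L (Ell2 Λ)} (hv : IsGen v)
  (f : Λ →* K) (hf : Function.Injective f) {x : Ell2 Λ →L[ℂ] Ell2 Λ}
include hv

theorem span_le {w : Ell2 Λ →L[ℂ] Ell2 Λ} (hw : w ∈ v.span) : w ∈ LA Λ :=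
  URep.span_induction (p := (· ∈ LA Λ)) (zero_mem _) hv.mem (fun _ _ => add_mem)
    (fun c _ => SMulMemClass.smul_mem c) hw

/-- the embedded representation -/
def embRep : URep L (Ell2 K) :=
  URep.ofStar (fun γ => emb f hf (v γ)) (by simp)
    (fun g h => by rw [map_mul, emb_mul f hf (hv.mem _) (hv.mem _)])
    fun g => by rw [← emb_star f hf (hv.mem _), v.star_apply]

@[simp] theorem embRep_apply (γ : L) : hv.embRep f hf γ = emb f hf (v γ) := rfl

theorem exists_seq (hx : x ∈ LA Λ) : ∃ w : ℕ → Ell2 Λ →L[ℂ] Ell2 Λ, (∀ n, w n ∈ v.span) ∧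
    (∀ n, ‖w n‖ ≤ ‖x‖ + 1) ∧ Tendsto (fun n => w n (dt 1)) atTop (𝓝 (x (dt 1))) := by
  set c : ℝ := ‖x‖ + 1
  have hc : 0 < c := by positivity
  have h1 : ‖((c⁻¹ : ℝ) : ℂ) • x‖ ≤ 1 := by
    rw [norm_smul, Complex.norm_real, Real.norm_of_nonneg (inv_pos.2 hc).le, inv_mul_le_iff₀ hc]
    simp [c]
  choose w hw hw1 hw2 using fun n : ℕ => v.kaplansky (m := ((c⁻¹ : ℝ) : ℂ) • x)
    (fun T hT => (LA_comm_RA (SMulMemClass.smul_mem _ hx) (hv.gen T hT)).symm) h1 {dt 1}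
    (Nat.one_div_pos_of_nat (α := ℝ) (n := n))
  refine ⟨fun n => (c : ℂ) • w n, fun n => SMulMemClass.smul_mem _ (hw n), fun n => ?_, ?_⟩
  · rw [norm_smul, Complex.norm_real, Real.norm_of_nonneg hc.le]
    exact mul_le_of_le_one_right hc.le (hw1 n)
  · have h2 : Tendsto (fun n => w n (dt 1)) atTop (𝓝 ((((c⁻¹ : ℝ) : ℂ) • x) (dt 1))) :=
      tendsto_iff_norm_sub_tendsto_zero.2 (squeeze_zero (fun _ => norm_nonneg _)
        (fun n => (hw2 n _ (Finset.mem_singleton_self _)).1.le)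
        tendsto_one_div_add_atTop_nhds_zero_nat)
    have h3 := h2.const_smul (c : ℂ)
    rwa [smul_apply, smul_smul, ← Complex.ofReal_mul, mul_inv_cancel₀ hc.ne', Complex.ofReal_one,
      one_smul] at h3

theorem exists_seq_emb (hx : x ∈ LA Λ) : ∃ w : ℕ → Ell2 Λ →L[ℂ] Ell2 Λ, (∀ n, w n ∈ v.span) ∧
    WTends (hyperfilter ℕ) (fun n => emb f hf (w n)) (emb f hf x) ∧
    WTends (hyperfilter ℕ) (fun n => Rm (emb f hf (w n))) (Rm (emb f hf x)) := by
  obtain ⟨w, hw, hw1, hw2⟩ := hv.exists_seq hx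
  have h : Tendsto (fun n => emb f hf (w n) (dt 1)) (hyperfilter ℕ) (𝓝 (emb f hf x (dt 1))) := by
    simp only [emb_hat f hf hx, emb_hat f hf (hv.span_le (hw _))]
    exact (((push f hf).continuous.tendsto _).comp hw2).mono_left Nat.hyperfilter_le_atTop
  have hb : ∀ n, ‖emb f hf (w n)‖ ≤ ‖x‖ + 1 := fun n => (norm_emb_le _ _ _).trans (hw1 n)
  refine ⟨w, hw, wtends_of_hat_LA _ (fun _ => emb_mem _ _ _) hb (emb_mem _ _ _) h,
    wtends_of_hat_RA _ (fun _ => Rm_mem_RA (emb_mem _ _ _)) (by simpa using hb)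
      (Rm_mem_RA (emb_mem _ _ _)) ?_⟩
  simpa only [Rm_hat_LA (emb_mem _ _ _)] using h

theorem emb_induction {p : (Ell2 K →L[ℂ] Ell2 K) → Prop} (h0 : p 0)
    (hg : ∀ γ, p (emb f hf (v γ))) (hadd : ∀ S T, p S → p T → p (S + T))
    (hsmul : ∀ (c : ℂ) S, p S → p (c • S)) {w : Ell2 Λ →L[ℂ] Ell2 Λ} (hw : w ∈ v.span) :
    p (emb f hf w) :=
  (URep.span_induction (p := fun w => w ∈ LA Λ ∧ p (emb f hf w))
    ⟨zero_mem _, by rwa [emb_zero]⟩ (fun γ => ⟨hv.mem γ, hg γ⟩)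
    (fun _ _ h1 h2 => ⟨add_mem h1.1 h2.1, by rw [emb_add f hf h1.1 h2.1]; exact hadd _ _ h1.2 h2.2⟩)
    (fun c _ h => ⟨SMulMemClass.smul_mem c h.1, by rw [emb_smul f hf c h.1]; exact hsmul _ _ h.2⟩)
    hw).2

theorem commute_emb {T : Ell2 K →L[ℂ] Ell2 K} (hT : ∀ γ, Commute T (emb f hf (v γ)))
    (hx : x ∈ LA Λ) : Commute T (emb f hf x) := by
  obtain ⟨w, hw, h, -⟩ := hv.exists_seq_emb f hf hx
  have hc : ∀ n, T * emb f hf (w n) = emb f hf (w n) * T := fun n =>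
    hv.emb_induction f hf (p := Commute T) (Commute.zero_right T) hT
      (fun _ _ => Commute.add_right) (fun c _ h => h.smul_right c) (hw n)
  exact WTends.unique (h.const_mul T) (by simpa only [hc] using h.mul_const T)

theorem commute_jj_emb {T : Ell2 K →L[ℂ] Ell2 K} (hT : ∀ γ, Commute T (jj (emb f hf (v γ))))
    (hx : x ∈ LA Λ) : Commute T (jj (emb f hf x)) := by
  simpa using commute_jj (hv.commute_emb f hf (T := jj T)
    (fun γ => by simpa using commute_jj (hT γ)) hx)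

theorem central {η : Ell2 K} (h : ∀ γ, emb f hf (v γ) η = Rm (emb f hf (v γ)) η)
    (hx : x ∈ LA Λ) : emb f hf x η = Rm (emb f hf x) η := by
  obtain ⟨w, hw, h1, h2⟩ := hv.exists_seq_emb f hf hx
  have hc : ∀ n, emb f hf (w n) η = Rm (emb f hf (w n)) η := fun n =>
    hv.emb_induction f hf (p := fun S => S η = Rm S η) (by simp) h
      (fun _ _ e1 e2 => by simp [Rm_add, e1, e2]) (fun c _ e => by simp [Rm_smul, e]) (hw n)
  exact ext_inner_left ℂ fun ζ => tendsto_nhds_unique (h1 ζ η) (by simpa only [hc] using h2 ζ η)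

end IsGen

theorem commute_emb (f : Λ →* K) (hf : Function.Injective f) {T : Ell2 K →L[ℂ] Ell2 K}
    (hT : ∀ s, Commute T (lam K (f s))) {x : Ell2 Λ →L[ℂ] Ell2 Λ} (hx : x ∈ LA Λ) :
    Commute T (emb f hf x) :=
  isGen_lam.commute_emb f hf (by simpa using hT) hx

theorem commute_jj_emb (f : Λ →* K) (hf : Function.Injective f) {T : Ell2 K →L[ℂ] Ell2 K}
    (hT : ∀ s, Commute T (rho K (f s))) {x : Ell2 Λ →L[ℂ] Ell2 Λ} (hx : x ∈ LA Λ) :
    Commute T (jj (emb f hf x)) :=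
  isGen_lam.commute_jj_emb f hf (by simpa using hT) hx

/-- an isomorphism `L(Λ) ≅ L(K)` gives a generating regular representation of `K` in `L(Λ)` -/
theorem Iso.exists_gen (θ : Iso Λ K) (hp : θ.p = 1) (hΛ : IsICC Λ) :
    ∃ v : URep K (Ell2 Λ), IsGen v ∧ IsReg v (dt 1) := by
  have ht : θ.t = 1 := by simp [Iso.t, hp]
  let u : URep Λ (Ell2 K) := URep.ofStar θ.u (θ.u_one.trans hp) θ.u_mul θ.star_u
  have hu : IsReg u (dt 1) := by
    refine ⟨⟨fun s => by simp, fun s r h => ?_⟩, fun w hw => eq_zero_of_inner_dt fun k => ?_⟩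
    · simp [u, θ.inner_u_hat hΛ, dt_ne h]
    · obtain ⟨x, hx, e⟩ := θ.surj (lam_mem_LA k)
      have h1 := (innerSL ℂ w).hasSum (θ.hasSum_hat hΛ hx)
      have h2 : ∀ s, ⟪w, θ.u s (dt 1)⟫_ℂ = 0 := fun s => inner_eq_zero_symm.1 (hw s)
      simp only [innerSL_apply_apply, inner_smul_right, h2, mul_zero, e, hp, mul_one, one_mul,
        lam_dt] at h1
      exact inner_eq_zero_symm.1 (h1.unique hasSum_zero)
  have hW : ∀ {x}, x ∈ LA Λ → ∀ ξ, hu.W (x ξ) = θ.φ x (hu.W ξ) := by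
    intro x hx ξ
    have h1 : ∀ {x}, x ∈ LA Λ → hu.W (x (dt 1)) = θ.φ x (dt 1) := fun hx =>
      (hasSum_syn hu.on _).unique (θ.hasSum_hat hΛ hx)
    have : (hu.W : Ell2 Λ →L[ℂ] Ell2 K) ∘L x = θ.φ x ∘L (hu.W : Ell2 Λ →L[ℂ] Ell2 K) :=
      ext_dt fun s => by
        have := h1 (mul_mem hx (lam_mem_LA s))
        rw [θ.mul hx (lam_mem_LA s)] at this
        simpa [u, Iso.u] using this
    exact congrArg (fun T : Ell2 Λ →L[ℂ] Ell2 K => T ξ) this
  have hW1 : hu.W (dt 1) = dt 1 := by simp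
  refine ⟨(lam K).transport hu.W.symm, ⟨fun k => ?_, fun T hT s => ?_⟩, ⟨?_, fun w hw => ?_⟩⟩
  · obtain ⟨x, hx, e⟩ := θ.surj (lam_mem_LA k)
    rw [hp, mul_one, one_mul] at e
    have : (lam K).transport hu.W.symm k = x := by
      ext1 ξ
      simp [← e, ← hW hx]
    rwa [this]
  · have h1 : (hu.W : Ell2 Λ →L[ℂ] Ell2 K) ∘L T ∘L (hu.W.symm : Ell2 K →L[ℂ] Ell2 Λ) ∈ RA K :=
      fun k => by
        ext1 ξ
        have := congrArg hu.W (URep.comm_apply hT k (hu.W.symm ξ))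
        simpa using this
    ext1 ξ
    have := congrArg (fun S : Ell2 K →L[ℂ] Ell2 K => S (hu.W ξ))
      (LA_comm_RA (θ.mem (lam_mem_LA s)) h1)
    apply hu.W.injective
    simpa [← hW (lam_mem_LA s)] using this
  · simpa [hW1, Function.comp_def] using
      (orthonormal_dt (X := K)).comp_linearIsometryEquiv hu.W.symm
  · apply hu.W.injective
    rw [map_zero]
    refine eq_zero_of_inner_dt fun k => ?_
    have := hw k
    rw [← hu.W.inner_map_map] at this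
    simpa [hW1] using this

end Crest.Agent.N111
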